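import Vale.Agent.P262.H703.Field3

/-!
# P262, milestone 2: moments of the hidden part of the power field

For any weight `w` the mean of `exc * w` at an outer label is bounded by the Hölder product of the
mean cap and the mean of `pay * w ^ (1 / (1 - θ))`; below sick labels the raw form with the alive
mass.
-/

set_option linter.all false

open MeasureTheory ProbabilityTheory Set
open scoped ENNReal RealInnerProductSpace

namespace Vale.Agent.P262.H108

open Vale.Agent.P262.H395 Vale.Agent.P262.H395.Tree Vale.Agent.P262.H703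

variable {E : Type*} [NormedAddCommGroup E] [InnerProductSpace ℝ E] [FiniteDimensional ℝ E]
  [MeasurableSpace E] [BorelSpace E] {ι κ : Type*} {θ : ℝ} {M : ℝ≥0∞}

/-- recursion of the excess at a node -/
lemma exc_node_le (V : Submodule ℝ E) (a : E → ℝ≥0∞) (c : E → ℕ) (T : ℕ → H395.Tree E ι)
    (f : ι → E → ℝ≥0∞) (y : E) :
    exc θ M (node V a c T) f y ≤ exc θ M (T (c y)) f y
      + (1 - phi θ (M * a y) (fib V (fun z => rv θ M (T (c z)) f z) y))
        * fld θ M (T (c y)) f y := by
  set p := phi θ (M * a y) (fib V (fun z => rv θ M (T (c z)) f z) y) with hp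
  have hp1 : p ≤ 1 := phi_le_one _ _ _
  have e1 : fld θ M (node V a c T) f y = p * fld θ M (T (c y)) f y := by
    unfold fld
    rw [wt_node, pay_node, ← hp, mul_assoc]
  unfold exc
  rw [e1, pay_node, tsub_le_iff_right]
  calc pay (T (c y)) f y
      ≤ (pay (T (c y)) f y - fld θ M (T (c y)) f y) + fld θ M (T (c y)) f y := le_tsub_add
    _ = (pay (T (c y)) f y - fld θ M (T (c y)) f y)
        + ((1 - p) + p) * fld θ M (T (c y)) f y := by rw [tsub_add_cancel_of_le hp1, one_mul]
    _ = _ := by ring

/-- Hölder inside the fibre: `E[u w] ≤ E[u]^θ E[u w^(1/(1-θ))]^(1-θ)` -/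
lemma fib_mul_weight_le {W : Submodule ℝ E} {u w : E → ℝ≥0∞} (hu : Measurable u)
    (hw : Measurable w) (hθ : 0 ≤ θ) (hθ1 : θ < 1) (x : E) :
    fib W (fun y => u y * w y) x
      ≤ fib W u x ^ θ * fib W (fun y => u y * w y ^ (1 / (1 - θ))) x ^ (1 - θ) := by
  have h1 : 0 ≤ 1 - θ := by linarith
  have h1' : 1 - θ ≠ 0 := by linarith
  have e : ∀ y, u y * w y = u y ^ θ * (u y * w y ^ (1 / (1 - θ))) ^ (1 - θ) := by
    intro y
    rw [ENNReal.mul_rpow_of_nonneg _ _ h1, ← ENNReal.rpow_mul, one_div, inv_mul_cancel₀ h1',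
      ENNReal.rpow_one, ← mul_assoc, ← ENNReal.rpow_add_of_nonneg _ _ hθ h1,
      show θ + (1 - θ) = 1 by ring, ENNReal.rpow_one]
  calc fib W (fun y => u y * w y) x
      = fib W (fun y => u y ^ θ * (u y * w y ^ (1 / (1 - θ))) ^ (1 - θ)) x := by
        congr 1; funext y; exact e y
    _ ≤ _ := fib_holder hu (hu.mul (hw.pow_const _)) hθ hθ1.le x

/-- the part of the excess created at one node -/
lemma node_part_le {V : Submodule ℝ E} {u w : E → ℝ≥0∞} (hu : Measurable u) (hw : Measurable w)
    (hθ : 0 < θ) (hθ1 : θ < 1) {F c : ℝ≥0∞} (y : E) (hF : fib V u y ≤ F) :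
    (1 - phi θ c F) * fib V (fun z => u z * w z) y
      ≤ c ^ θ * fib V (fun z => u z * w z ^ (1 / (1 - θ))) y ^ (1 - θ) := by
  have h1 : 1 - phi θ c F ≤ (c / F) ^ θ := by
    unfold phi
    rw [tsub_le_iff_right, add_comm]
    exact le_tsub_add
  have h2 : (c / F) ^ θ * F ^ θ ≤ c ^ θ := by
    rw [← ENNReal.mul_rpow_of_nonneg _ _ hθ.le]
    refine ENNReal.rpow_le_rpow ?_ hθ.le
    rw [mul_comm]
    exact ENNReal.mul_div_le
  calc (1 - phi θ c F) * fib V (fun z => u z * w z) y
      ≤ (c / F) ^ θ * (F ^ θ * fib V (fun z => u z * w z ^ (1 / (1 - θ))) y ^ (1 - θ)) := by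
        refine mul_le_mul' h1 ((fib_mul_weight_le hu hw hθ.le hθ1 y).trans ?_)
        exact mul_le_mul' (ENNReal.rpow_le_rpow hF hθ.le) le_rfl
    _ = ((c / F) ^ θ * F ^ θ) * fib V (fun z => u z * w z ^ (1 / (1 - θ))) y ^ (1 - θ) := by ring
    _ ≤ _ := by gcongr

/-- averaging a Hölder product over an outer label -/
lemma avg_holder {K : ℝ≥0∞} {b H : E → ℝ≥0∞} (hθ : 0 ≤ θ) (hθ1 : θ ≤ 1) (hb : Measurable b)
    (hH : Measurable H) {W : Submodule ℝ E} (x : E) :
    fib W (fun y => K * ((M * b y) ^ θ * H y ^ (1 - θ))) x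
      ≤ K * ((M * fib W b x) ^ θ * fib W H x ^ (1 - θ)) := by
  have hu : Measurable fun y => M * b y := hb.const_mul M
  rw [fib_mul (g := fun _ => K) (f := fun y => (M * b y) ^ θ * H y ^ (1 - θ))
    (inv_const W K) (((hu.pow_const θ)).mul (hH.pow_const (1 - θ)))]
  calc K * fib W (fun y => (M * b y) ^ θ * H y ^ (1 - θ)) x
      ≤ K * (fib W (fun y => M * b y) x ^ θ * fib W H x ^ (1 - θ)) := by
        gcongr
        exact fib_holder hu hH hθ hθ1 x
    _ = _ := by rw [fib_mul (g := fun _ => M) (inv_const W M) hb]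

lemma measurable_exc_sel {c : E → ℕ} (hc : Measurable c) {T : ℕ → H395.Tree E ι}
    (hgd : ∀ k, Good (T k)) {f : ι → E → ℝ≥0∞} (hf : ∀ i, Measurable (f i)) :
    Measurable fun y => exc θ M (T (c y)) f y :=
  measurable_sel (F := fun k y => exc θ M (T k) f y) (fun k => measurable_exc (hgd k) hf) hc

lemma measurable_fld_sel {c : E → ℕ} (hc : Measurable c) {T : ℕ → H395.Tree E ι}
    (hgd : ∀ k, Good (T k)) {f : ι → E → ℝ≥0∞} (hf : ∀ i, Measurable (f i)) :
    Measurable fun y => fld θ M (T (c y)) f y :=
  measurable_sel (F := fun k y => fld θ M (T k) f y) (fun k => measurable_fld (hgd k) hf) hc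

/-- the split of `exc * w` at a node, seen at the label of the node -/
lemma fib_exc_node {V : Submodule ℝ E} {a : E → ℝ≥0∞} {c : E → ℕ} {T : ℕ → H395.Tree E ι}
    (hT : Good (node V a c T)) {f : ι → E → ℝ≥0∞} (hf : ∀ i, Measurable (f i)) {w : E → ℝ≥0∞}
    (hw : Measurable w) (y : E) :
    fib V (fun z => exc θ M (node V a c T) f z * w z) y
      ≤ fib V (fun z => exc θ M (T (c y)) f z * w z) y
        + (1 - phi θ (M * a y) (fib V (fun z => rv θ M (T (c z)) f z) y))
          * fib V (fun z => fld θ M (T (c y)) f z * w z) y := by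
  obtain ⟨ha, haW, hc, hcW, hab, hgd⟩ := hT
  set F : E → ℝ≥0∞ := fib V (fun z => rv θ M (T (c z)) f z) with hFdef
  have hFV : Inv V F := inv_fib V _
  have hme := measurable_exc_sel (θ := θ) (M := M) hc hgd hf
  have hmf := measurable_fld_sel (θ := θ) (M := M) hc hgd hf
  have hgV : Inv V fun z => 1 - phi θ (M * a z) (F z) := by
    intro z v hv
    simp only [haW z v hv, hFV z v hv]
  calc fib V (fun z => exc θ M (node V a c T) f z * w z) y
      ≤ fib V (fun z => exc θ M (T (c z)) f z * w z
          + (1 - phi θ (M * a z) (F z)) * (fld θ M (T (c z)) f z * w z)) y := by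
        refine fib_mono (fun z => ?_) y
        calc exc θ M (node V a c T) f z * w z
            ≤ (exc θ M (T (c z)) f z + (1 - phi θ (M * a z) (F z)) * fld θ M (T (c z)) f z)
              * w z := mul_le_mul' (exc_node_le V a c T f z) le_rfl
          _ = _ := by ring
    _ = fib V (fun z => exc θ M (T (c z)) f z * w z) y
        + fib V (fun z => (1 - phi θ (M * a z) (F z)) * (fld θ M (T (c z)) f z * w z)) y :=
        fib_add (hme.mul hw) y
    _ = fib V (fun z => exc θ M (T (c z)) f z * w z) y
        + (1 - phi θ (M * a y) (F y)) * fib V (fun z => fld θ M (T (c z)) f z * w z) y := by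
        rw [fib_mul (f := fun z => fld θ M (T (c z)) f z * w z) hgV (hmf.mul hw)]
    _ = _ := by
        rw [fib_sel hcW (fun k z => exc θ M (T k) f z * w z) y,
          fib_sel hcW (fun k z => fld θ M (T k) f z * w z) y]

/-- **Moments of the hidden part.** -/
theorem fib_exc_mul_le {T : H395.Tree E ι} (hT : Good T) (hθ : 0 < θ) (hθ1 : θ < 1)
    {k K : ℝ≥0∞} {b : E → ℝ≥0∞} (hb : Maj k T b) (hK : 1 + K * k ^ θ ≤ K)
    {f : ι → E → ℝ≥0∞} (hf : ∀ i, Measurable (f i)) {w : E → ℝ≥0∞} (hw : Measurable w)
    {W : Submodule ℝ E} (hW : Above W T) (x : E) :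
    fib W (fun y => exc θ M T f y * w y) x
      ≤ K * ((M * fib W b x) ^ θ
        * fib W (fun y => pay T f y * w y ^ (1 / (1 - θ))) x ^ (1 - θ)) := by
  induction T generalizing W x b with
  | leaf i =>
    have e : ∀ y, exc θ M (leaf i : H395.Tree E ι) f y = 0 := by
      intro y
      unfold exc fld
      rw [wt_leaf, one_mul, tsub_self]
    have e2 : fib W (fun y => exc θ M (leaf i : H395.Tree E ι) f y * w y) x = 0 := by
      have : (fun y => exc θ M (leaf i : H395.Tree E ι) f y * w y) = fun _ => 0 := by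
        funext y; rw [e, zero_mul]
      rw [this, fib_const]
    rw [e2]
    exact zero_le
  | node V a c T ih =>
    have hT' := hT
    obtain ⟨ha, haW, hc, hcW, hab, hgd⟩ := hT
    obtain ⟨hbm, hab', b', hb', hM⟩ := hb
    have hwh : Measurable fun y => w y ^ (1 / (1 - θ)) := hw.pow_const _
    have hp := measurable_pay_sel hc hgd hf
    set H : E → ℝ≥0∞ := fib V (fun y => pay (T (c y)) f y * w y ^ (1 / (1 - θ))) with hH
    have hHm : Measurable H := measurable_fib (hp.mul hwh)
    have key : ∀ y, fib V (fun z => exc θ M (node V a c T) f z * w z) y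
        ≤ K * ((M * b y) ^ θ * H y ^ (1 - θ)) := by
      intro y
      have eH : H y = fib V (fun z => pay (T (c y)) f z * w z ^ (1 / (1 - θ))) y :=
        fib_sel hcW (fun k z => pay (T k) f z * w z ^ (1 / (1 - θ))) y
      refine (fib_exc_node hT' hf hw y).trans ?_
      -- the inner part
      have h1 := ih (c y) (hgd _) (hM (c y)) (hab _) y
      have h1' : fib V (fun z => exc θ M (T (c y)) f z * w z) y
          ≤ K * k ^ θ * ((M * b y) ^ θ * H y ^ (1 - θ)) := by
        refine h1.trans ?_
        rw [← eH]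
        have h3 : (M * fib V (b' (c y)) y) ^ θ ≤ k ^ θ * (M * b y) ^ θ := by
          rw [← ENNReal.mul_rpow_of_nonneg _ _ hθ.le]
          refine ENNReal.rpow_le_rpow ?_ hθ.le
          calc M * fib V (b' (c y)) y ≤ M * (k * b y) := by gcongr; exact hb' y
            _ = k * (M * b y) := by ring
        calc K * ((M * fib V (b' (c y)) y) ^ θ * H y ^ (1 - θ))
            ≤ K * ((k ^ θ * (M * b y) ^ θ) * H y ^ (1 - θ)) := by gcongr
          _ = _ := by ring
      -- the part created at this node
      have hmf : Measurable (fld θ M (T (c y)) f) := measurable_fld (hgd _) hf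
      have hFe : fib V (fld θ M (T (c y)) f) y
          ≤ fib V (fun z => rv θ M (T (c z)) f z) y := by
        rw [fib_sel hcW (fun k y => rv θ M (T k) f y) y, ← fib_wt_pay (hgd _) hf (hab _)]
        exact le_rfl
      have h2 := node_part_le (c := M * a y) hmf hw hθ hθ1 y hFe
      have h2' : (1 - phi θ (M * a y) (fib V (fun z => rv θ M (T (c z)) f z) y))
          * fib V (fun z => fld θ M (T (c y)) f z * w z) y
          ≤ (M * b y) ^ θ * H y ^ (1 - θ) := by
        refine h2.trans ?_
        rw [eH]
        refine mul_le_mul' (ENNReal.rpow_le_rpow (by gcongr; exact hab' y) hθ.le)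
          (ENNReal.rpow_le_rpow (fib_mono (fun z => ?_) y) (by linarith))
        exact mul_le_mul' (fld_le_pay _ _ _) le_rfl
      calc _ ≤ K * k ^ θ * ((M * b y) ^ θ * H y ^ (1 - θ)) + (M * b y) ^ θ * H y ^ (1 - θ) :=
            add_le_add h1' h2'
        _ = (1 + K * k ^ θ) * ((M * b y) ^ θ * H y ^ (1 - θ)) := by ring
        _ ≤ _ := by gcongr
    have hme : Measurable fun y => exc θ M (node V a c T) f y * w y :=
      (measurable_exc hT' hf).mul hw
    have hpw : Measurable fun y => pay (T (c y)) f y * w y ^ (1 / (1 - θ)) := hp.mul hwh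
    have e7 : fib W (fun y => pay (node V a c T) f y * w y ^ (1 / (1 - θ))) x = fib W H x := by
      have e8 : (fun y => pay (node V a c T) f y * w y ^ (1 / (1 - θ)))
          = fun y => pay (T (c y)) f y * w y ^ (1 / (1 - θ)) := by
        funext y; rw [pay_node]
      rw [e8, hH]
      exact (fib_tower hW hpw x).symm
    rw [← fib_tower hW hme, e7]
    exact (fib_mono key x).trans (avg_holder hθ.le hθ1.le hbm hHm x)

/-- moments of the hidden part at a node (the field of the label of the node) -/
theorem node_exc_mul_le {V : Submodule ℝ E} {a : E → ℝ≥0∞} {c : E → ℕ} {T : ℕ → H395.Tree E ι}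
    (hT : Good (node V a c T)) (hθ : 0 < θ) (hθ1 : θ < 1) {k K : ℝ≥0∞} {b : E → ℝ≥0∞}
    (hS : Maj k (node V a c T) b) (hK : 1 + K * k ^ θ ≤ K) {f : ι → E → ℝ≥0∞}
    (hf : ∀ i, Measurable (f i)) {w : E → ℝ≥0∞} (hw : Measurable w) (x : E) :
    fib V (fun y => exc θ M (T (c x)) f y * w y) x
      ≤ K * k ^ θ * ((M * b x) ^ θ
        * fib V (fun y => pay (T (c x)) f y * w y ^ (1 / (1 - θ))) x ^ (1 - θ)) := by
  obtain ⟨ha, haW, hc, hcW, hab, hgd⟩ := hT
  obtain ⟨hbm, hab', b', hb', hM⟩ := hS
  have h1 := fib_exc_mul_le (M := M) (hgd (c x)) hθ hθ1 (hM _) hK hf hw (hab (c x)) x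
  refine h1.trans ?_
  have h3 : (M * fib V (b' (c x)) x) ^ θ ≤ k ^ θ * (M * b x) ^ θ := by
    rw [← ENNReal.mul_rpow_of_nonneg _ _ hθ.le]
    refine ENNReal.rpow_le_rpow ?_ hθ.le
    calc M * fib V (b' (c x)) x ≤ M * (k * b x) := by gcongr; exact hb' x
      _ = k * (M * b x) := by ring
  calc K * ((M * fib V (b' (c x)) x) ^ θ
        * fib V (fun y => pay (T (c x)) f y * w y ^ (1 / (1 - θ))) x ^ (1 - θ))
      ≤ K * ((k ^ θ * (M * b x) ^ θ)
        * fib V (fun y => pay (T (c x)) f y * w y ^ (1 / (1 - θ))) x ^ (1 - θ)) := by gcongr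
    _ = _ := by ring

/-! ### below sick labels -/

/-- at every node with nonzero cap (own label) the weighted mean `fib V (w ^ (1/(1-θ)))` is
bounded by the alive part `g`, and the caps below are majorized -/
def SickW (θ : ℝ) (k C : ℝ≥0∞) (w g : E → ℝ≥0∞) : H395.Tree E ι → Prop
  | leaf _ => True
  | node V a c T => (∀ x, a x ≠ 0 →
      fib V (fun y => w y ^ (1 / (1 - θ))) x ^ (1 - θ) ≤ C * fib V g x ∧
      ∃ b, Maj k (T (c x)) b ∧ fib V b x ≤ k * a x) ∧ ∀ i, SickW θ k C w g (T i)

/-- **Moments of the hidden part below sick labels**: raw form. -/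
theorem fib_exc_mul_sick {T : H395.Tree E ι} (hT : Good T) (hθ : 0 < θ) (hθ1 : θ < 1)
    {k K C : ℝ≥0∞} {w g : E → ℝ≥0∞} (hw : Measurable w) (hg : Measurable g)
    (hS : SickW θ k C w g T) (hK : 1 + K * k ^ θ ≤ K)
    {f : ι → E → ℝ≥0∞} (hf : ∀ i, Measurable (f i)) (hf1 : ∀ i x, f i x ≤ 1)
    {W : Submodule ℝ E} (hW : Above W T) (x : E) :
    fib W (fun y => exc θ M T f y * w y) x
      ≤ K * C * fib W (fun y => fow θ M T y * g y) x := by
  induction T generalizing W x with
  | leaf i =>
    have e2 : fib W (fun y => exc θ M (leaf i : H395.Tree E ι) f y * w y) x = 0 := by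
      have : (fun y => exc θ M (leaf i : H395.Tree E ι) f y * w y) = fun _ => 0 := by
        funext y
        unfold exc fld
        rw [wt_leaf, one_mul, tsub_self, zero_mul]
      rw [this, fib_const]
    rw [e2]
    exact zero_le
  | node V a c T ih =>
    have hT' := hT
    obtain ⟨ha, haW, hc, hcW, hab, hgd⟩ := hT
    have hfg : Measurable fun y => fow θ M (node V a c T) y * g y := (measurable_fow hT').mul hg
    have key : ∀ y, fib V (fun z => exc θ M (node V a c T) f z * w z) y
        ≤ K * C * fib V (fun y => fow θ M (node V a c T) y * g y) y := by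
      intro y
      by_cases h0 : a y = 0
      · -- sick label
        have e1 : (1 - phi θ (M * a y) (fib V (fun z => rv θ M (T (c z)) f z) y)) = 0 := by
          rw [h0, mul_zero]
          unfold phi
          rw [ENNReal.zero_div, ENNReal.zero_rpow_of_pos hθ, tsub_zero, tsub_self]
        have e2 : fib V (fun y => fow θ M (node V a c T) y * g y) y
            = fib V (fun z => fow θ M (T (c y)) z * g z) y := by
          unfold fib
          refine lintegral_congr fun z => ?_
          have h1 : a (mix V y z) = 0 := by rw [haW.mix, h0]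
          show fow θ M (node V a c T) (mix V y z) * g (mix V y z)
            = fow θ M (T (c y)) (mix V y z) * g (mix V y z)
          rw [fow_node, if_pos h1, hcW.mix]
        have h1 := fib_exc_node (θ := θ) (M := M) hT' hf hw y
        rw [e1, zero_mul, add_zero] at h1
        rw [e2]
        exact h1.trans (ih (c y) (hgd _) (hS.2 _) (hab _) y)
      · -- own label
        obtain ⟨hal, b, hb, hbk⟩ := hS.1 y h0
        have e2 : fib V (fun y => fow θ M (node V a c T) y * g y) y
            = (M * a y) ^ θ * fib V g y := by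
          have e3 : (M * a y) ^ θ * fib V g y
              = fib V (fun z => (M * a y) ^ θ * g z) y := by
            rw [fib_mul (g := fun _ => (M * a y) ^ θ) (inv_const V _) hg]
          rw [e3]
          unfold fib
          refine lintegral_congr fun z => ?_
          have h1 : a (mix V y z) = a y := haW.mix y z
          show fow θ M (node V a c T) (mix V y z) * g (mix V y z)
            = (M * a y) ^ θ * g (mix V y z)
          rw [fow_node, h1, if_neg h0]
        set B : ℝ≥0∞ := fib V (fun z => w z ^ (1 / (1 - θ))) y ^ (1 - θ) with hB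
        have hpw : ∀ u : E → ℝ≥0∞, (∀ z, u z ≤ 1) →
            fib V (fun z => u z * w z ^ (1 / (1 - θ))) y ^ (1 - θ) ≤ B := by
          intro u hu
          refine ENNReal.rpow_le_rpow (fib_mono (fun z => ?_) y) (by linarith)
          exact (mul_le_mul' (hu z) le_rfl).trans_eq (one_mul _)
        have h1 := fib_exc_mul_le (M := M) (hgd (c y)) hθ hθ1 hb hK hf hw (hab (c y)) y
        have h1' : fib V (fun z => exc θ M (T (c y)) f z * w z) y
            ≤ K * k ^ θ * ((M * a y) ^ θ * B) := by
          refine h1.trans ?_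
          have h3 : (M * fib V b y) ^ θ ≤ k ^ θ * (M * a y) ^ θ := by
            rw [← ENNReal.mul_rpow_of_nonneg _ _ hθ.le]
            refine ENNReal.rpow_le_rpow ?_ hθ.le
            calc M * fib V b y ≤ M * (k * a y) := by gcongr
              _ = k * (M * a y) := by ring
          calc K * ((M * fib V b y) ^ θ
                * fib V (fun z => pay (T (c y)) f z * w z ^ (1 / (1 - θ))) y ^ (1 - θ))
              ≤ K * ((k ^ θ * (M * a y) ^ θ) * B) := by
                gcongr
                exact hpw _ (fun z => pay_le (C := 1) hf1 z)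
            _ = _ := by ring
        have hmf : Measurable (fld θ M (T (c y)) f) := measurable_fld (hgd _) hf
        have hFe : fib V (fld θ M (T (c y)) f) y
            ≤ fib V (fun z => rv θ M (T (c z)) f z) y := by
          rw [fib_sel hcW (fun k y => rv θ M (T k) f y) y, ← fib_wt_pay (hgd _) hf (hab _)]
          exact le_rfl
        have h2 := node_part_le (c := M * a y) hmf hw hθ hθ1 y hFe
        have h2' : (1 - phi θ (M * a y) (fib V (fun z => rv θ M (T (c z)) f z) y))
            * fib V (fun z => fld θ M (T (c y)) f z * w z) y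
            ≤ (M * a y) ^ θ * B :=
          h2.trans (mul_le_mul' le_rfl (hpw _ (fun z => fld_le (C := 1) hf1 z)))
        refine (fib_exc_node hT' hf hw y).trans ?_
        rw [e2]
        calc _ ≤ K * k ^ θ * ((M * a y) ^ θ * B) + (M * a y) ^ θ * B := add_le_add h1' h2'
          _ = (1 + K * k ^ θ) * ((M * a y) ^ θ * B) := by ring
          _ ≤ K * ((M * a y) ^ θ * (C * fib V g y)) := by gcongr
          _ = _ := by ring
    have hme : Measurable fun y => exc θ M (node V a c T) f y * w y :=
      (measurable_exc hT' hf).mul hw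
    rw [← fib_tower hW hme]
    refine (fib_mono key x).trans ?_
    rw [fib_mul (g := fun _ => K * C) (inv_const W (K * C)) (measurable_fib hfg),
      fib_tower hW hfg]

end Vale.Agent.P262.H108
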