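import Vale.Agent.P262.H108.ExcMom
import Vale.Agent.P262.H962.Chi

/-!
# P262, milestone 2: moments of the hidden part, exponent `1/2`, linear weights
-/

set_option linter.all false

open MeasureTheory ProbabilityTheory Set
open scoped ENNReal RealInnerProductSpace

namespace Vale.Agent.P262.H108

open Vale.Agent.P262.H395 Vale.Agent.P262.H395.Tree Vale.Agent.P262.H703

variable {E : Type*} [NormedAddCommGroup E] [InnerProductSpace ℝ E] [FiniteDimensional ℝ E]
  [MeasurableSpace E] [BorelSpace E] {ι κ : Type*} {θ : ℝ} {M : ℝ≥0∞}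

/-- the weight `|⟪e, y⟫|` -/
noncomputable def lw (e y : E) : ℝ≥0∞ := ENNReal.ofReal |⟪e, y⟫|

@[fun_prop]
lemma measurable_lw (e : E) : Measurable (lw e) := by
  unfold lw
  fun_prop

lemma lw_sq (e y : E) : lw e y ^ (2:ℝ) = ENNReal.ofReal (⟪e, y⟫ ^ 2) := by
  unfold lw
  rw [ENNReal.ofReal_rpow_of_nonneg (abs_nonneg _) (by norm_num)]
  congr 1
  rw [show ((2:ℝ)) = ((2:ℕ):ℝ) by norm_num, Real.rpow_natCast, sq_abs]

lemma inner_mix_of_mem {W : Submodule ℝ E} {e : E} (he : e ∈ Wᗮ) (x z : E) :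
    ⟪e, mix W x z⟫ = ⟪e, z⟫ := by
  have h1 : ⟪e, W.starProjection x⟫ = 0 :=
    (Submodule.mem_orthogonal' W e).mp he _ (Submodule.starProjection_apply_mem _ _)
  have h2 : ⟪e, W.starProjection z⟫ = 0 :=
    (Submodule.mem_orthogonal' W e).mp he _ (Submodule.starProjection_apply_mem _ _)
  unfold mix
  rw [inner_add_right, inner_sub_right, h1, h2]
  ring

/-- exponential moment of a square along a unit vector -/
lemma lintegral_exp_sq {e : E} (he : ‖e‖ = 1) :
    ∫⁻ z, ENNReal.ofReal (Real.exp (⟪e, z⟫ ^ 2 / 4)) ∂stdGaussian E ≤ ENNReal.ofReal (3 / 2) := by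
  have h1 := H962.lintegral_exp_proj (E := E) (Submodule.span ℝ {e}) (lam := 1 / 4) (by norm_num)
  have h0 : e ≠ 0 := by
    intro h
    rw [h, norm_zero] at he
    exact zero_ne_one he
  rw [finrank_span_singleton h0, pow_one] at h1
  have h2 : ∀ z : E, Real.exp (1 / 4 * ‖(Submodule.span ℝ {e}).starProjection z‖ ^ 2)
      = Real.exp (⟪e, z⟫ ^ 2 / 4) := by
    intro z
    rw [Submodule.starProjection_unit_singleton ℝ he, norm_smul, he, mul_one, Real.norm_eq_abs,
      sq_abs]
    congr 1
    ring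
  simp_rw [h2] at h1
  rw [h1]
  refine ENNReal.ofReal_le_ofReal ?_
  have h3 : Real.sqrt (1 - 2 * (1 / 4)) = Real.sqrt (1 / 2) := by norm_num
  rw [h3]
  have h4 : (2:ℝ) / 3 ≤ Real.sqrt (1 / 2) := Real.le_sqrt_of_sq_le (by norm_num)
  calc (Real.sqrt (1 / 2))⁻¹ ≤ ((2:ℝ) / 3)⁻¹ := by gcongr
    _ = 3 / 2 := by norm_num

/-- **Bathtub for the square**: `E[g ⟪e,·⟫²] ≤ 6 D (1 - log D)`, `D = E[g]`. -/
theorem fib_sq_le {W : Submodule ℝ E} {e : E} (he : ‖e‖ = 1) (heW : e ∈ Wᗮ) {g : E → ℝ≥0∞}
    (hg : Measurable g) (hg1 : ∀ y, g y ≤ 1) (x : E) :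
    fib W (fun y => g y * lw e y ^ (2:ℝ)) x
      ≤ ENNReal.ofReal (6 * ((fib W g x).toReal * (1 - Real.log (fib W g x).toReal))) := by
  have hD1 : fib W g x ≤ 1 := fib_le_one hg1 x
  have hDt : fib W g x ≠ ∞ := ne_top_of_le_ne_top ENNReal.one_ne_top hD1
  set D := (fib W g x).toReal with hDdef
  have hDr : D ≤ 1 := by
    have := ENNReal.toReal_mono ENNReal.one_ne_top hD1
    simpa using this
  rcases eq_or_lt_of_le (ENNReal.toReal_nonneg : 0 ≤ D) with h0 | hpos
  · -- no mass
    have hz : fib W g x = 0 := by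
      rcases (ENNReal.toReal_eq_zero_iff _).mp h0.symm with h | h
      · exact h
      · exact absurd h hDt
    have hz' : ∀ᵐ z ∂stdGaussian E, g (mix W x z) = 0 := by
      have := (lintegral_eq_zero_iff (hg.comp (measurable_mix_right W x))).mp hz
      filter_upwards [this] with z hz
      exact hz
    have : fib W (fun y => g y * lw e y ^ (2:ℝ)) x = 0 := by
      unfold fib
      refine (lintegral_congr_ae ?_).trans lintegral_zero
      filter_upwards [hz'] with z hz
      simp [hz]
    rw [this]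
    exact zero_le
  · set L := Real.log D with hL
    have hL0 : L ≤ 0 := Real.log_nonpos hpos.le hDr
    have hexp : Real.exp L = D := Real.exp_log hpos
    have hpt : ∀ y, g y * lw e y ^ (2:ℝ)
        ≤ ENNReal.ofReal (-(4 * L)) * g y
          + ENNReal.ofReal (4 * D) * ENNReal.ofReal (Real.exp (⟪e, y⟫ ^ 2 / 4)) := by
      intro y
      rw [lw_sq]
      set s := ⟪e, y⟫ ^ 2 with hs
      have h1 : s ≤ -(4 * L) + 4 * D * Real.exp (s / 4) := by
        have h2 : (s + 4 * L) / 4 ≤ Real.exp ((s + 4 * L) / 4) := by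
          have := Real.add_one_le_exp ((s + 4 * L) / 4)
          linarith
        have h3 : Real.exp ((s + 4 * L) / 4) = D * Real.exp (s / 4) := by
          rw [← hexp, ← Real.exp_add]
          congr 1
          ring
        rw [h3] at h2
        linarith
      have h4 : ENNReal.ofReal s ≤ ENNReal.ofReal (-(4 * L))
          + ENNReal.ofReal (4 * D) * ENNReal.ofReal (Real.exp (s / 4)) := by
        rw [← ENNReal.ofReal_mul (by positivity), ← ENNReal.ofReal_add (by linarith)
          (by positivity)]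
        exact ENNReal.ofReal_le_ofReal h1
      calc g y * ENNReal.ofReal s
          ≤ g y * (ENNReal.ofReal (-(4 * L))
            + ENNReal.ofReal (4 * D) * ENNReal.ofReal (Real.exp (s / 4))) := by gcongr
        _ = ENNReal.ofReal (-(4 * L)) * g y
            + g y * (ENNReal.ofReal (4 * D) * ENNReal.ofReal (Real.exp (s / 4))) := by ring
        _ ≤ ENNReal.ofReal (-(4 * L)) * g y
            + 1 * (ENNReal.ofReal (4 * D) * ENNReal.ofReal (Real.exp (s / 4))) := by
            gcongr
            exact hg1 y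
        _ = _ := by rw [one_mul]
    have hme : Measurable fun y : E => ENNReal.ofReal (Real.exp (⟪e, y⟫ ^ 2 / 4)) := by fun_prop
    have hfe : fib W (fun y => ENNReal.ofReal (Real.exp (⟪e, y⟫ ^ 2 / 4))) x
        ≤ ENNReal.ofReal (3 / 2) := by
      unfold fib
      simp_rw [inner_mix_of_mem heW]
      exact lintegral_exp_sq he
    calc fib W (fun y => g y * lw e y ^ (2:ℝ)) x
        ≤ fib W (fun y => ENNReal.ofReal (-(4 * L)) * g y
          + ENNReal.ofReal (4 * D) * ENNReal.ofReal (Real.exp (⟪e, y⟫ ^ 2 / 4))) x :=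
          fib_mono hpt x
      _ = fib W (fun y => ENNReal.ofReal (-(4 * L)) * g y) x
          + fib W (fun y => ENNReal.ofReal (4 * D)
            * ENNReal.ofReal (Real.exp (⟪e, y⟫ ^ 2 / 4))) x := fib_add (hg.const_mul _) x
      _ = ENNReal.ofReal (-(4 * L)) * fib W g x
          + ENNReal.ofReal (4 * D)
            * fib W (fun y => ENNReal.ofReal (Real.exp (⟪e, y⟫ ^ 2 / 4))) x := by
          rw [fib_mul (g := fun _ => ENNReal.ofReal (-(4 * L))) (inv_const W _) hg,
            fib_mul (g := fun _ => ENNReal.ofReal (4 * D)) (inv_const W _) hme]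
      _ ≤ ENNReal.ofReal (-(4 * L)) * ENNReal.ofReal D
          + ENNReal.ofReal (4 * D) * ENNReal.ofReal (3 / 2) := by
          gcongr
          rw [hDdef, ENNReal.ofReal_toReal hDt]
      _ = ENNReal.ofReal (-(4 * L) * D + 4 * D * (3 / 2)) := by
          rw [← ENNReal.ofReal_mul (by linarith), ← ENNReal.ofReal_mul (by positivity),
            ← ENNReal.ofReal_add (mul_nonneg (by linarith) hpos.le) (by positivity)]
      _ ≤ _ := by
          refine ENNReal.ofReal_le_ofReal ?_
          have := mul_nonneg_of_nonpos_of_nonpos hL0 (by linarith : -D ≤ 0)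
          nlinarith

/-- second moment of a linear weight, any direction -/
lemma fib_lw_sq_le {W : Submodule ℝ E} {e : E} (he : ‖e‖ = 1) (x : E) :
    fib W (fun y => lw e y ^ (2:ℝ)) x ^ (1 / 2 : ℝ)
      ≤ ENNReal.ofReal (|⟪e, W.starProjection x⟫| + 1) := by
  set p := ⟪e, W.starProjection x⟫ with hp
  set e' := e - W.starProjection e with he'
  have hn : ‖e'‖ ≤ 1 := by
    have h1 : e' = Wᗮ.starProjection e := by
      rw [he', Submodule.starProjection_orthogonal]
      rfl
    rw [h1, ← he]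
    exact Submodule.norm_starProjection_apply_le _ _
  have hi : ∀ z, ⟪e, mix W x z⟫ = p + ⟪e', z⟫ := by
    intro z
    unfold mix
    rw [inner_add_right, inner_sub_right, he', inner_sub_left,
      ← Submodule.inner_starProjection_left_eq_right W e z]
  -- the second moment is `p² + ‖e'‖²`
  have hmom : ∫ z, (p + ⟪e', z⟫) ^ 2 ∂stdGaussian E ≤ p ^ 2 + 1 := by
    have i1 : Integrable (fun z : E => ⟪e', z⟫) (stdGaussian E) :=
      ((IsGaussian.memLp_dual (stdGaussian E) (innerSL ℝ e') 1 (by simp)).integrable le_rfl)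
    have i2 : Integrable (fun z : E => ⟪e', z⟫ ^ 2) (stdGaussian E) :=
      (IsGaussian.memLp_dual (stdGaussian E) (innerSL ℝ e') 2 (by simp)).integrable_sq
    have e1 : ∫ z, ⟪e', z⟫ ∂stdGaussian E = 0 := by
      have := integral_strongDual_stdGaussian (E := E) (innerSL ℝ e')
      simpa using this
    have e2 : ∫ z, ⟪e', z⟫ ^ 2 ∂stdGaussian E = ‖e'‖ ^ 2 := by
      have h1 := variance_dual_stdGaussian (E := E) (innerSL ℝ e')
      rw [variance_eq_sub (IsGaussian.memLp_dual (stdGaussian E) (innerSL ℝ e') 2 (by simp))] at h1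
      have h2 := integral_strongDual_stdGaussian (E := E) (innerSL ℝ e')
      rw [h2] at h1
      simp only [Pi.pow_apply, innerSL_apply_apply] at h1
      simpa using h1
    have e3 : ∀ z : E, (p + ⟪e', z⟫) ^ 2 = p ^ 2 + (2 * p) * ⟪e', z⟫ + ⟪e', z⟫ ^ 2 := by
      intro z; ring
    simp_rw [e3]
    have i3 : Integrable (fun z : E => (2 * p) * ⟪e', z⟫) (stdGaussian E) := i1.const_mul _
    have i4 : Integrable (fun z : E => p ^ 2 + (2 * p) * ⟪e', z⟫) (stdGaussian E) :=
      (integrable_const _).add i3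
    rw [integral_add i4 i2, integral_add (integrable_const _) i3, integral_const_mul, e1, e2]
    simp only [integral_const, probReal_univ, one_smul, mul_zero, add_zero]
    nlinarith [norm_nonneg e']
  have hint : Integrable (fun z : E => (p + ⟪e', z⟫) ^ 2) (stdGaussian E) := by
    have h1 : MemLp (fun z : E => p + ⟪e', z⟫) 2 (stdGaussian E) :=
      (memLp_const p).add (IsGaussian.memLp_dual (stdGaussian E) (innerSL ℝ e') 2 (by simp))
    exact h1.integrable_sq
  have h1 : fib W (fun y => lw e y ^ (2:ℝ)) x ≤ ENNReal.ofReal ((|p| + 1) ^ 2) := by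
    unfold fib
    simp_rw [lw_sq, hi]
    rw [← ofReal_integral_eq_lintegral_ofReal hint (Filter.Eventually.of_forall fun z => by
      positivity)]
    refine ENNReal.ofReal_le_ofReal (hmom.trans ?_)
    have := abs_nonneg p
    have h2 := sq_abs p
    nlinarith
  calc fib W (fun y => lw e y ^ (2:ℝ)) x ^ (1 / 2 : ℝ)
      ≤ ENNReal.ofReal ((|p| + 1) ^ 2) ^ (1 / 2 : ℝ) := ENNReal.rpow_le_rpow h1 (by norm_num)
    _ = ENNReal.ofReal (|p| + 1) := by
        rw [ENNReal.ofReal_rpow_of_nonneg (by positivity) (by norm_num)]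
        congr 1
        rw [← Real.sqrt_eq_rpow, Real.sqrt_sq (by positivity)]

/-- lower bound of the alive first moment at a healthy label -/
lemma fib_alive_lw {W : Submodule ℝ E} {e : E} {g : E → ℝ≥0∞} (hg : Measurable g)
    (hg1 : ∀ y, g y ≤ 1) (x : E) (hal : 1 ≤ ENNReal.ofReal (4 / 3) * fib W g x) :
    ENNReal.ofReal |⟪e, W.starProjection x⟫| ≤ 4 * fib W (fun y => g y * lw e y) x := by
  set p := ⟪e, W.starProjection x⟫ with hp
  set e' := e - W.starProjection e with he'
  have hi : ∀ z, ⟪e, mix W x z⟫ = p + ⟪e', z⟫ := by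
    intro z
    unfold mix
    rw [inner_add_right, inner_sub_right, he', inner_sub_left,
      ← Submodule.inner_starProjection_left_eq_right W e z]
  -- a half space of measure at least one half on which the weight is at least `|p|`
  set H : Set E := {z | 0 ≤ p * ⟪e', z⟫} with hH
  have hHm : MeasurableSet H := by
    refine measurableSet_le measurable_const ?_
    fun_prop
  have hneg : stdGaussian E {z : E | p * ⟪e', z⟫ ≤ 0} = stdGaussian E H := by
    have h1 : MeasurePreserving (fun z : E => -z) (stdGaussian E) (stdGaussian E) := by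
      refine ⟨by fun_prop, ?_⟩
      have := stdGaussian_map (LinearIsometryEquiv.neg ℝ (E := E))
      simpa using this
    have h2 := h1.measure_preimage hHm.nullMeasurableSet
    rw [← h2]
    congr 1
    ext z
    simp only [mem_setOf_eq, mem_preimage, hH, inner_neg_right, mul_neg, Left.nonneg_neg_iff]
  have hhalf : stdGaussian E Hᶜ ≤ 2⁻¹ := by
    have h1 : Hᶜ ⊆ {z : E | p * ⟪e', z⟫ ≤ 0} := by
      intro z hz
      simp only [hH, mem_compl_iff, mem_setOf_eq, not_le] at hz ⊢
      exact hz.le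
    have h2 : stdGaussian E Hᶜ ≤ stdGaussian E H := (measure_mono h1).trans_eq hneg
    have h3 : stdGaussian E H + stdGaussian E Hᶜ = 1 := by
      rw [measure_add_measure_compl hHm, measure_univ]
    have h4 : stdGaussian E Hᶜ * 2 ≤ 1 := by
      calc stdGaussian E Hᶜ * 2 = stdGaussian E Hᶜ + stdGaussian E Hᶜ := by ring
        _ ≤ stdGaussian E H + stdGaussian E Hᶜ := by gcongr
        _ = 1 := h3
    rw [← one_div]
    exact (ENNReal.le_div_iff_mul_le (Or.inl (by norm_num)) (Or.inl (by norm_num))).mpr h4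
  have hgm : Measurable fun z => g (mix W x z) := hg.comp (measurable_mix_right W x)
  have hq : ENNReal.ofReal (3 / 4) ≤ fib W g x := by
    calc ENNReal.ofReal (3 / 4) = ENNReal.ofReal (3 / 4) * 1 := (mul_one _).symm
      _ ≤ ENNReal.ofReal (3 / 4) * (ENNReal.ofReal (4 / 3) * fib W g x) := by gcongr
      _ = fib W g x := by
          rw [← mul_assoc, ← ENNReal.ofReal_mul (by norm_num)]
          norm_num
  have hsplit : fib W g x ≤ (∫⁻ z in H, g (mix W x z) ∂stdGaussian E) + 2⁻¹ := by
    unfold fib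
    rw [← lintegral_add_compl _ hHm]
    gcongr
    calc ∫⁻ z in Hᶜ, g (mix W x z) ∂stdGaussian E
        ≤ ∫⁻ z in Hᶜ, 1 ∂stdGaussian E := lintegral_mono fun z => hg1 _
      _ = stdGaussian E Hᶜ := by simp
      _ ≤ _ := hhalf
  have hquart : ENNReal.ofReal (1 / 4) ≤ ∫⁻ z in H, g (mix W x z) ∂stdGaussian E := by
    have h1 := hq.trans hsplit
    have h2 : ENNReal.ofReal (3 / 4) = ENNReal.ofReal (1 / 4) + 2⁻¹ := by
      rw [show (2⁻¹ : ℝ≥0∞) = ENNReal.ofReal (1 / 2) by
        rw [one_div, ENNReal.ofReal_inv_of_pos (by norm_num), ENNReal.ofReal_ofNat],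
        ← ENNReal.ofReal_add (by norm_num) (by norm_num)]
      norm_num
    rw [h2] at h1
    exact (ENNReal.add_le_add_iff_right (by norm_num)).mp h1
  have hlow : ∀ z ∈ H, ENNReal.ofReal |p| ≤ lw e (mix W x z) := by
    intro z hz
    unfold lw
    rw [hi]
    refine ENNReal.ofReal_le_ofReal ?_
    have hz' : 0 ≤ p * ⟪e', z⟫ := hz
    rw [← Real.sqrt_sq_eq_abs, ← Real.sqrt_sq_eq_abs]
    refine Real.sqrt_le_sqrt ?_
    nlinarith [sq_nonneg ⟪e', z⟫]
  calc ENNReal.ofReal |p|
      = 4 * (ENNReal.ofReal (1 / 4) * ENNReal.ofReal |p|) := by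
        rw [← mul_assoc, show (4 : ℝ≥0∞) = ENNReal.ofReal 4 by simp,
          ← ENNReal.ofReal_mul (by norm_num)]
        norm_num
    _ ≤ 4 * ((∫⁻ z in H, g (mix W x z) ∂stdGaussian E) * ENNReal.ofReal |p|) := by gcongr
    _ = 4 * ∫⁻ z in H, g (mix W x z) * ENNReal.ofReal |p| ∂stdGaussian E := by
        rw [lintegral_mul_const _ hgm]
    _ ≤ 4 * ∫⁻ z in H, g (mix W x z) * lw e (mix W x z) ∂stdGaussian E := by
        gcongr 4 * ?_
        refine setLIntegral_mono' hHm fun z hz => ?_
        gcongr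
        exact hlow z hz
    _ ≤ 4 * fib W (fun y => g y * lw e y) x := by
        gcongr 4 * ?_
        exact setLIntegral_le_lintegral _ _

/-- the condition of `SickW` at a healthy label, exponent `1/2`, linear weight -/
theorem sickW_cond {W : Submodule ℝ E} {e : E} (he : ‖e‖ = 1) {g : E → ℝ≥0∞} (hg : Measurable g)
    (hg1 : ∀ y, g y ≤ 1) (x : E) (hal : 1 ≤ ENNReal.ofReal (4 / 3) * fib W g x) :
    fib W (fun y => lw e y ^ (1 / (1 - (1 / 2 : ℝ)))) x ^ (1 - (1 / 2 : ℝ))
      ≤ 4 * fib W (fun y => g y * (1 + lw e y)) x := by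
  rw [show (1 / (1 - (1 / 2 : ℝ))) = 2 by norm_num, show (1 - (1 / 2 : ℝ)) = 1 / 2 by norm_num]
  refine (fib_lw_sq_le he x).trans ?_
  have h1 := fib_alive_lw (e := e) hg hg1 x hal
  have h2 : (1 : ℝ≥0∞) ≤ 4 * fib W g x := by
    refine hal.trans ?_
    gcongr
    rw [show (4 : ℝ≥0∞) = ENNReal.ofReal 4 by simp]
    exact ENNReal.ofReal_le_ofReal (by norm_num)
  have e3 : fib W (fun y => g y * (1 + lw e y)) x
      = fib W g x + fib W (fun y => g y * lw e y) x := by
    rw [← fib_add hg]
    congr 1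
    funext y
    ring
  rw [ENNReal.ofReal_add (abs_nonneg _) zero_le_one, ENNReal.ofReal_one, e3, mul_add, add_comm]
  exact add_le_add h2 h1

end Vale.Agent.P262.H108
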