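import Vale.Agent.P262.H108.ExcMom2

/-!
# P262, milestone 2: the b-part of an inner rotation

`exc` = hidden part of the power field with exponent `1/2`; the displacement of a point under the
rotation is at most `τ (|⟪e₁,y⟫| + |⟪e₂,y⟫|)`.
-/

set_option linter.all false

open MeasureTheory ProbabilityTheory Set
open scoped ENNReal RealInnerProductSpace

namespace Vale.Agent.P262.H108

open Vale.Agent.P262.H395 Vale.Agent.P262.H395.Tree Vale.Agent.P262.H703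

variable {E : Type*} [NormedAddCommGroup E] [InnerProductSpace ℝ E] [FiniteDimensional ℝ E]
  [MeasurableSpace E] [BorelSpace E] {ι κ : Type*} {M : ℝ≥0∞}

/-- `6 D (1 - log D)` for the mass `D` -/
noncomputable def L6 (D : ℝ≥0∞) : ℝ≥0∞ :=
  ENNReal.ofReal (6 * (D.toReal * (1 - Real.log D.toReal)))

/-- outer label, one direction -/
theorem fib_exc_lw {T : H395.Tree E ι} (hT : Good T) {k K : ℝ≥0∞} {b : E → ℝ≥0∞}
    (hb : Maj k T b) (hK : 1 + K * k ^ (1 / 2 : ℝ) ≤ K) {f : ι → E → ℝ≥0∞}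
    (hf : ∀ i, Measurable (f i)) (hf1 : ∀ i x, f i x ≤ 1) {W : Submodule ℝ E} (hW : Above W T)
    {e : E} (he : ‖e‖ = 1) (heW : e ∈ Wᗮ) (x : E) :
    fib W (fun y => exc (1 / 2) M T f y * lw e y) x
      ≤ K * ((M * fib W b x) ^ (1 / 2 : ℝ) * L6 (fib W (pay T f) x) ^ (1 / 2 : ℝ)) := by
  have h1 := fib_exc_mul_le (M := M) (θ := 1 / 2) hT (by norm_num) (by norm_num) hb hK hf
    (measurable_lw e) hW x
  rw [show (1 / (1 - (1 / 2 : ℝ))) = 2 by norm_num, show (1 - (1 / 2 : ℝ)) = 1 / 2 by norm_num]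
    at h1
  refine h1.trans ?_
  gcongr
  exact fib_sq_le he heW (measurable_pay hT hf) (fun y => pay_le (C := 1) hf1 y) x

/-- at a node, one direction -/
theorem node_exc_lw {V : Submodule ℝ E} {a : E → ℝ≥0∞} {c : E → ℕ} {T : ℕ → H395.Tree E ι}
    (hT : Good (node V a c T)) {k K : ℝ≥0∞} {b : E → ℝ≥0∞} (hS : Maj k (node V a c T) b)
    (hK : 1 + K * k ^ (1 / 2 : ℝ) ≤ K) {f : ι → E → ℝ≥0∞} (hf : ∀ i, Measurable (f i))
    (hf1 : ∀ i x, f i x ≤ 1) {e : E} (he : ‖e‖ = 1) (heV : e ∈ Vᗮ) (x : E) :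
    fib V (fun y => exc (1 / 2) M (T (c x)) f y * lw e y) x
      ≤ K * k ^ (1 / 2 : ℝ) * ((M * b x) ^ (1 / 2 : ℝ)
        * L6 (fib V (pay (T (c x)) f) x) ^ (1 / 2 : ℝ)) := by
  have h1 := node_exc_mul_le (M := M) (θ := 1 / 2) hT (by norm_num) (by norm_num) hS hK hf
    (measurable_lw e) x
  rw [show (1 / (1 - (1 / 2 : ℝ))) = 2 by norm_num, show (1 - (1 / 2 : ℝ)) = 1 / 2 by norm_num]
    at h1
  refine h1.trans ?_
  obtain ⟨ha, haW, hc, hcW, hab, hgd⟩ := hT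
  gcongr
  exact fib_sq_le he heV (measurable_pay (hgd _) hf) (fun y => pay_le (C := 1) hf1 y) x

/-- splitting a displacement weight -/
lemma fib_disp_le {W : Submodule ℝ E} {u w : E → ℝ≥0∞} (hu : Measurable u) {e₁ e₂ : E}
    {τ B : ℝ≥0∞} (hw : ∀ y, w y ≤ τ * (lw e₁ y + lw e₂ y)) (x : E)
    (h1 : fib W (fun y => u y * lw e₁ y) x ≤ B) (h2 : fib W (fun y => u y * lw e₂ y) x ≤ B) :
    fib W (fun y => u y * w y) x ≤ 2 * τ * B := by
  have m1 : Measurable fun y => u y * lw e₁ y := hu.mul (measurable_lw e₁)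
  have m2 : Measurable fun y => u y * lw e₂ y := hu.mul (measurable_lw e₂)
  calc fib W (fun y => u y * w y) x
      ≤ fib W (fun y => τ * (u y * lw e₁ y + u y * lw e₂ y)) x := by
        refine fib_mono (fun y => ?_) x
        calc u y * w y ≤ u y * (τ * (lw e₁ y + lw e₂ y)) := by gcongr; exact hw y
          _ = _ := by ring
    _ = τ * (fib W (fun y => u y * lw e₁ y) x + fib W (fun y => u y * lw e₂ y) x) := by
        rw [fib_mul (g := fun _ => τ) (f := fun y => u y * lw e₁ y + u y * lw e₂ y)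
          (inv_const W τ) (m1.add m2), fib_add m1]
    _ ≤ τ * (B + B) := by gcongr
    _ = _ := by ring

/-- **b-part of an inner rotation at a healthy label.** -/
theorem node_exc_disp {V : Submodule ℝ E} {a : E → ℝ≥0∞} {c : E → ℕ} {T : ℕ → H395.Tree E ι}
    (hT : Good (node V a c T)) {k K : ℝ≥0∞} {b : E → ℝ≥0∞} (hS : Maj k (node V a c T) b)
    (hK : 1 + K * k ^ (1 / 2 : ℝ) ≤ K) {f : ι → E → ℝ≥0∞} (hf : ∀ i, Measurable (f i))
    (hf1 : ∀ i x, f i x ≤ 1) {e₁ e₂ : E} (h1 : ‖e₁‖ = 1) (h2 : ‖e₂‖ = 1) (hV1 : e₁ ∈ Vᗮ)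
    (hV2 : e₂ ∈ Vᗮ) {w : E → ℝ≥0∞} {τ : ℝ≥0∞} (hw : ∀ y, w y ≤ τ * (lw e₁ y + lw e₂ y)) (x : E) :
    fib V (fun y => exc (1 / 2) M (T (c x)) f y * w y) x
      ≤ 2 * τ * (K * k ^ (1 / 2 : ℝ) * ((M * b x) ^ (1 / 2 : ℝ)
        * L6 (fib V (pay (T (c x)) f) x) ^ (1 / 2 : ℝ))) := by
  have hgd : Good (T (c x)) := hT.2.2.2.2.2 (c x)
  exact fib_disp_le (measurable_exc hgd hf) hw x (node_exc_lw hT hS hK hf hf1 h1 hV1 x)
    (node_exc_lw hT hS hK hf hf1 h2 hV2 x)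

/-- the same at any outer label -/
theorem fib_exc_disp {T : H395.Tree E ι} (hT : Good T) {k K : ℝ≥0∞} {b : E → ℝ≥0∞}
    (hb : Maj k T b) (hK : 1 + K * k ^ (1 / 2 : ℝ) ≤ K) {f : ι → E → ℝ≥0∞}
    (hf : ∀ i, Measurable (f i)) (hf1 : ∀ i x, f i x ≤ 1) {W : Submodule ℝ E} (hW : Above W T)
    {e₁ e₂ : E} (h1 : ‖e₁‖ = 1) (h2 : ‖e₂‖ = 1) (hW1 : e₁ ∈ Wᗮ) (hW2 : e₂ ∈ Wᗮ)
    {w : E → ℝ≥0∞} {τ : ℝ≥0∞} (hw : ∀ y, w y ≤ τ * (lw e₁ y + lw e₂ y)) (x : E) :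
    fib W (fun y => exc (1 / 2) M T f y * w y) x
      ≤ 2 * τ * (K * ((M * fib W b x) ^ (1 / 2 : ℝ)
        * L6 (fib W (pay T f) x) ^ (1 / 2 : ℝ))) :=
  fib_disp_le (measurable_exc hT hf) hw x (fib_exc_lw hT hb hK hf hf1 hW h1 hW1 x)
    (fib_exc_lw hT hb hK hf hf1 hW h2 hW2 x)

/-! ### below sick labels -/

/-- 703's `Sick` gives the weighted condition, any unit direction -/
lemma sickW_of_sick {T : H395.Tree E ι} {k : ℝ≥0∞} {g : E → ℝ≥0∞} (hg : Measurable g)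
    (hg1 : ∀ y, g y ≤ 1) (hS : Sick k g T) {e : E} (he : ‖e‖ = 1) :
    SickW (1 / 2) k 4 (lw e) (fun y => g y * (1 + lw e y)) T := by
  induction T with
  | leaf i => trivial
  | node V a c T ih =>
    refine ⟨fun x hx => ?_, fun i => ih i (hS.2 i)⟩
    obtain ⟨hal, b, hb, hbk⟩ := hS.1 x hx
    exact ⟨sickW_cond he hg hg1 x hal, b, hb, hbk⟩

/-- below sick labels, one direction (any unit vector) -/
theorem fib_exc_lw_sick {T : H395.Tree E ι} (hT : Good T) {k K : ℝ≥0∞} {g : E → ℝ≥0∞}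
    (hg : Measurable g) (hg1 : ∀ y, g y ≤ 1) (hS : Sick k g T)
    (hK : 1 + K * k ^ (1 / 2 : ℝ) ≤ K) {f : ι → E → ℝ≥0∞} (hf : ∀ i, Measurable (f i))
    (hf1 : ∀ i x, f i x ≤ 1) {W : Submodule ℝ E} (hW : Above W T) {e : E} (he : ‖e‖ = 1)
    (x : E) :
    fib W (fun y => exc (1 / 2) M T f y * lw e y) x
      ≤ K * 4 * fib W (fun y => fow (1 / 2) M T y * (g y * (1 + lw e y))) x :=
  fib_exc_mul_sick hT (by norm_num) (by norm_num) (measurable_lw e)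
    (hg.mul (measurable_const.add (measurable_lw e))) (sickW_of_sick hg hg1 hS he) hK hf hf1 hW x

/-- **b-part of an inner rotation below sick labels**, raw form with the alive mass. -/
theorem fib_exc_disp_sick {T : H395.Tree E ι} (hT : Good T) {k K : ℝ≥0∞} {g : E → ℝ≥0∞}
    (hg : Measurable g) (hg1 : ∀ y, g y ≤ 1) (hS : Sick k g T)
    (hK : 1 + K * k ^ (1 / 2 : ℝ) ≤ K) {f : ι → E → ℝ≥0∞} (hf : ∀ i, Measurable (f i))
    (hf1 : ∀ i x, f i x ≤ 1) {W : Submodule ℝ E} (hW : Above W T) {e₁ e₂ : E} (h1 : ‖e₁‖ = 1)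
    (h2 : ‖e₂‖ = 1) {w : E → ℝ≥0∞} {τ : ℝ≥0∞} (hw : ∀ y, w y ≤ τ * (lw e₁ y + lw e₂ y))
    (x : E) :
    fib W (fun y => exc (1 / 2) M T f y * w y) x
      ≤ 2 * τ * (K * 4 * fib W (fun y => fow (1 / 2) M T y
        * (g y * (1 + lw e₁ y + lw e₂ y))) x) := by
  refine fib_disp_le (measurable_exc hT hf) hw x ?_ ?_
  · refine (fib_exc_lw_sick hT hg hg1 hS hK hf hf1 hW h1 x).trans ?_
    gcongr K * 4 * ?_
    refine fib_mono (fun y => ?_) x
    gcongr fow (1 / 2) M T y * (g y * ?_)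
    exact le_self_add
  · refine (fib_exc_lw_sick hT hg hg1 hS hK hf hf1 hW h2 x).trans ?_
    gcongr K * 4 * ?_
    refine fib_mono (fun y => ?_) x
    gcongr fow (1 / 2) M T y * (g y * ?_)
    rw [add_right_comm]
    exact le_self_add

/-! ### killed part -/

/-- Cauchy–Schwarz for fibre averages -/
lemma fib_cs {W : Submodule ℝ E} {u w : E → ℝ≥0∞} (hu : Measurable u) (hw : Measurable w)
    (x : E) : fib W (fun y => u y * w y) x
      ≤ fib W (fun y => u y ^ (2:ℝ)) x ^ (1 / 2 : ℝ) * fib W (fun y => w y ^ (2:ℝ)) x ^ (1 / 2 : ℝ) := by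
  have h := fib_holder (W := W) (hu.pow_const (2:ℝ)) (hw.pow_const (2:ℝ)) (θ := 1 / 2) (by norm_num)
    (by norm_num) x
  have e : ∀ v : ℝ≥0∞, (v ^ (2:ℝ)) ^ (1 / 2 : ℝ) = v := by
    intro v
    rw [← ENNReal.rpow_mul]
    norm_num
  rw [show (1 - (1 / 2 : ℝ)) = 1 / 2 by norm_num] at h
  simp_rw [e] at h
  exact h

/-- killed part: `Z` is contained in `{b₀ < A}` -/
theorem fib_killed_lw {W : Submodule ℝ E} {A : E → ℝ≥0∞} (hA : Measurable A) {Z : Set E}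
    {b₀ : ℝ≥0∞} (hb0 : b₀ ≠ 0) (hbt : b₀ ≠ ∞) (hZ : ∀ y ∈ Z, b₀ ≤ A y) {e : E}
    (he : ‖e‖ = 1) (x : E) :
    fib W (fun y => Z.indicator (fun _ => (1:ℝ≥0∞)) y * lw e y) x
      ≤ b₀⁻¹ * (fib W (fun y => A y ^ (2:ℝ)) x ^ (1 / 2 : ℝ)
        * ENNReal.ofReal (|⟪e, W.starProjection x⟫| + 1)) := by
  have hpt : ∀ y, Z.indicator (fun _ => (1:ℝ≥0∞)) y * lw e y ≤ b₀⁻¹ * (A y * lw e y) := by
    intro y
    rw [← mul_assoc]
    gcongr
    by_cases hy : y ∈ Z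
    · rw [indicator_of_mem hy]
      calc (1:ℝ≥0∞) = b₀⁻¹ * b₀ := (ENNReal.inv_mul_cancel hb0 hbt).symm
        _ ≤ b₀⁻¹ * A y := by gcongr; exact hZ y hy
    · rw [indicator_of_notMem hy]
      exact zero_le
  calc fib W (fun y => Z.indicator (fun _ => (1:ℝ≥0∞)) y * lw e y) x
      ≤ fib W (fun y => b₀⁻¹ * (A y * lw e y)) x := fib_mono hpt x
    _ = b₀⁻¹ * fib W (fun y => A y * lw e y) x := by
        rw [fib_mul (g := fun _ => b₀⁻¹) (f := fun y => A y * lw e y) (inv_const W _)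
          (hA.mul (measurable_lw e))]
    _ ≤ _ := by
        gcongr
        refine (fib_cs hA (measurable_lw e) x).trans ?_
        gcongr
        exact fib_lw_sq_le he x

end Vale.Agent.P262.H108
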