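import Mathlib
import Vale.Agent.P262.H493.Flag
import Vale.Agent.P262.H912.Bridge2

/-!
# Flux and gain of one star step

`mid K v h` are the intermediate bodies of the star operation: chords of length at least `2|v|`
are extended by `h|v|` at both ends, all other chords are removed.
-/

set_option linter.all false

open MeasureTheory ProbabilityTheory Set Filter Topology
open scoped ENNReal RealInnerProductSpace

namespace Vale.Agent.P262.H108

open Vale.Agent.P262.H493 (star)

variable {E : Type*} [NormedAddCommGroup E] [InnerProductSpace ℝ E]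

/-- thick chords extended by `h` -/
def mid (K : Set E) (v : E) (h : ℝ) : Set E :=
  {x | ∃ a b : ℝ, x + a • v ∈ K ∧ x + b • v ∈ K ∧ 2 ≤ b - a ∧ a ≤ h ∧ -h ≤ b}

lemma mid_one (K : Set E) (v : E) : mid K v 1 = star K v := rfl

lemma mid_mono (K : Set E) (v : E) {h h' : ℝ} (hh : h ≤ h') : mid K v h ⊆ mid K v h' := by
  rintro x ⟨a, b, h1, h2, h3, h4, h5⟩
  exact ⟨a, b, h1, h2, h3, by linarith, by linarith⟩

lemma mid_shift {K : Set E} {v x : E} {h : ℝ} (hx : x ∈ mid K v h) (t : ℝ) :
    x + t • v ∈ mid K v (h + |t|) := by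
  obtain ⟨a, b, h1, h2, h3, h4, h5⟩ := hx
  have e1 : x + t • v + (a - t) • v = x + a • v := by rw [sub_smul]; abel
  have e2 : x + t • v + (b - t) • v = x + b • v := by rw [sub_smul]; abel
  refine ⟨a - t, b - t, by rw [e1]; exact h1, by rw [e2]; exact h2, by linarith, ?_, ?_⟩
  · have := neg_abs_le t; linarith
  · have := le_abs_self t; linarith

lemma mid_of_mem {K : Set E} {v x : E} {h : ℝ} (hx : x ∈ mid K v h) (hK : x ∈ K) :
    x ∈ mid K v 0 := by
  obtain ⟨a, b, h1, h2, h3, h4, h5⟩ := hx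
  by_cases ha : 0 < a
  · exact ⟨0, b, by simpa using hK, h2, by linarith, le_rfl, by linarith⟩
  · push Not at ha
    by_cases hb : b < 0
    · exact ⟨a, 0, h1, by simpa using hK, by linarith, ha, by linarith⟩
    · push Not at hb
      exact ⟨a, b, h1, h2, h3, ha, by linarith⟩

lemma mid_zero_subset {K : Set E} (hK : Convex ℝ K) (v : E) : mid K v 0 ⊆ K := by
  rintro x ⟨a, b, h1, h2, h3, h4, h5⟩
  have hab : 0 < b - a := by linarith
  have hs : 0 ≤ b / (b - a) := div_nonneg (by linarith) hab.le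
  have ht : 0 ≤ -a / (b - a) := div_nonneg (by linarith) hab.le
  have hst : b / (b - a) + -a / (b - a) = 1 := by
    rw [← add_div, div_eq_one_iff_eq hab.ne']; ring
  have := hK h1 h2 hs ht hst
  have e0 : b / (b - a) * a + -a / (b - a) * b = 0 := by field_simp; ring
  have e1 : (b / (b - a)) • (x + a • v) + (-a / (b - a)) • (x + b • v) = x := by
    rw [smul_add, smul_add, smul_smul, smul_smul]
    have : (b / (b - a)) • x + (b / (b - a) * a) • v + ((-a / (b - a)) • x
        + (-a / (b - a) * b) • v) = (b / (b - a) + -a / (b - a)) • x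
        + (b / (b - a) * a + -a / (b - a) * b) • v := by
      simp only [add_smul]; abel
    rw [this, hst, e0, one_smul, zero_smul, add_zero]
  rwa [e1] at this

lemma convex_mid {K : Set E} (hK : Convex ℝ K) (v : E) (h : ℝ) : Convex ℝ (mid K v h) := by
  rintro x ⟨a, b, h1, h2, h3, h4, h5⟩ y ⟨a', b', h1', h2', h3', h4', h5'⟩ s t hs ht hst
  refine ⟨s * a + t * a', s * b + t * b', ?_, ?_, ?_, ?_, ?_⟩
  · have := hK h1 h1' hs ht hst
    convert this using 1
    simp only [smul_add, add_smul, smul_smul]; abel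
  · have := hK h2 h2' hs ht hst
    convert this using 1
    simp only [smul_add, add_smul, smul_smul]; abel
  · nlinarith
  · nlinarith
  · nlinarith

lemma neg_mem_mid {K : Set E} (hK : ∀ x ∈ K, -x ∈ K) {v : E} {h : ℝ} {x : E}
    (hx : x ∈ mid K v h) : -x ∈ mid K v h := by
  obtain ⟨a, b, h1, h2, h3, h4, h5⟩ := hx
  refine ⟨-b, -a, ?_, ?_, by linarith, by linarith, by linarith⟩
  · have := hK _ h2
    rwa [neg_add, ← neg_smul] at this
  · have := hK _ h1
    rwa [neg_add, ← neg_smul] at this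

lemma mid_subset_star {K : Set E} {v : E} {h : ℝ} (h1 : h ≤ 1) : mid K v h ⊆ star K v :=
  mid_mono K v h1

lemma mem_star_diff_of_mid_diff {K : Set E} {v x : E} {h : ℝ} (h1 : h ≤ 1)
    (hx : x ∈ mid K v h) (hK : x ∉ K) : x ∈ star K v \ K := ⟨mid_subset_star h1 hx, hK⟩

lemma notMem_star_of_notMem_mid {K : Set E} {v x : E} {h : ℝ} (h0 : 0 ≤ h)
    (hx : x ∉ mid K v h) (hK : x ∈ K) : x ∉ star K v := fun hs =>
  hx (mid_mono K v h0 (mid_of_mem (h := 1) hs hK))

lemma mem_star_diff_of_notMem_mid {K : Set E} {v x : E} {h : ℝ} (h0 : 0 ≤ h)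
    (hx : x ∉ mid K v h) (hs : x ∈ star K v) : x ∈ star K v \ K :=
  ⟨hs, fun hK => notMem_star_of_notMem_mid h0 hx hK hs⟩

/-- pointwise distance between the fields of `K` and of the intermediate body -/
lemma abs_ind_mid_sub_le {K : Set E} {v : E} {h : ℝ} (h0 : 0 ≤ h) (h1 : h ≤ 1) (x : E) :
    |(mid K v h)ᶜ.indicator (1 : E → ℝ) x - Kᶜ.indicator 1 x|
      ≤ (star K v \ K).indicator 1 x + (K \ star K v).indicator 1 x := by
  have h3 : (0:ℝ) ≤ (star K v \ K).indicator 1 x := indicator_nonneg (by simp) x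
  have h4 : (0:ℝ) ≤ (K \ star K v).indicator 1 x := indicator_nonneg (by simp) x
  by_cases a : x ∈ mid K v h <;> by_cases b : x ∈ K
  · rw [indicator_of_notMem (by simpa using a), indicator_of_notMem (by simpa using b), sub_self,
      abs_zero]
    linarith
  · have h5 : (star K v \ K).indicator (1 : E → ℝ) x = 1 :=
      indicator_of_mem (mem_star_diff_of_mid_diff h1 a b) _
    rw [indicator_of_notMem (by simpa using a), indicator_of_mem (by simpa using b), h5]
    simp only [Pi.one_apply, zero_sub, abs_neg, abs_one]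
    linarith
  · have h6 : x ∈ K \ star K v := ⟨b, notMem_star_of_notMem_mid h0 a b⟩
    have h5 : (K \ star K v).indicator (1 : E → ℝ) x = 1 := indicator_of_mem h6 _
    rw [indicator_of_mem (by simpa using a), indicator_of_notMem (by simpa using b), h5]
    simp only [Pi.one_apply, sub_zero, abs_one]
    linarith
  · rw [indicator_of_mem (by simpa using a), indicator_of_mem (by simpa using b), sub_self,
      abs_zero]
    linarith

/-- pointwise distance between the fields of `star K v` and of the intermediate body -/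
lemma abs_ind_star_sub_le {K : Set E} {v : E} {h : ℝ} (h0 : 0 ≤ h) (h1 : h ≤ 1) (x : E) :
    |(star K v)ᶜ.indicator (1 : E → ℝ) x - (mid K v h)ᶜ.indicator 1 x|
      ≤ (star K v \ K).indicator 1 x := by
  have h3 : (0:ℝ) ≤ (star K v \ K).indicator 1 x := indicator_nonneg (by simp) x
  by_cases a : x ∈ mid K v h <;> by_cases b : x ∈ star K v
  · rw [indicator_of_notMem (by simpa using b), indicator_of_notMem (by simpa using a), sub_self,
      abs_zero]
    exact h3
  · exact absurd (mid_subset_star h1 a) b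
  · have h5 : (star K v \ K).indicator (1 : E → ℝ) x = 1 :=
      indicator_of_mem (mem_star_diff_of_notMem_mid h0 a b) _
    rw [indicator_of_notMem (by simpa using b), indicator_of_mem (by simpa using a), h5]
    simp only [Pi.one_apply, zero_sub, abs_neg, abs_one]
    exact le_refl _
  · rw [indicator_of_mem (by simpa using b), indicator_of_mem (by simpa using a), sub_self,
      abs_zero]
    exact h3

/-- the graph of the family of intermediate bodies is closed -/
lemma isClosed_midGraph {K : Set E} (hK : IsClosed K) {v : E} (hv : v ≠ 0)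
    (hb : ∃ R : ℝ, ∀ x ∈ K, |⟪v, x⟫| ≤ R) :
    IsClosed {p : E × ℝ | 0 ≤ p.2 ∧ p.2 ≤ 1 ∧ p.1 ∈ mid K v p.2} := by
  obtain ⟨R, hR⟩ := hb
  have hv0 : 0 < ‖v‖ := norm_pos_iff.mpr hv
  have hv2 : 0 < ‖v‖ ^ 2 := by positivity
  set M : ℝ := 1 + 2 * R / ‖v‖ ^ 2 with hM
  haveI : CompactSpace (Icc (-M) M) := isCompact_iff_compactSpace.mp isCompact_Icc
  set S : Set ((E × ℝ) × (Icc (-M) M × Icc (-M) M)) :=
    {q | q.1.1 + (q.2.1 : ℝ) • v ∈ K ∧ q.1.1 + (q.2.2 : ℝ) • v ∈ K ∧
      2 ≤ (q.2.2 : ℝ) - (q.2.1 : ℝ) ∧ (q.2.1 : ℝ) ≤ q.1.2 ∧ -q.1.2 ≤ (q.2.2 : ℝ) ∧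
      0 ≤ q.1.2 ∧ q.1.2 ≤ 1} with hS
  have c0 : Continuous fun q : (E × ℝ) × (Icc (-M) M × Icc (-M) M) => q.1.1 :=
    continuous_fst.comp continuous_fst
  have ch : Continuous fun q : (E × ℝ) × (Icc (-M) M × Icc (-M) M) => q.1.2 :=
    continuous_snd.comp continuous_fst
  have c1 : Continuous fun q : (E × ℝ) × (Icc (-M) M × Icc (-M) M) => (q.2.1 : ℝ) :=
    continuous_subtype_val.comp (continuous_fst.comp continuous_snd)
  have c2 : Continuous fun q : (E × ℝ) × (Icc (-M) M × Icc (-M) M) => (q.2.2 : ℝ) :=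
    continuous_subtype_val.comp (continuous_snd.comp continuous_snd)
  have hSc : IsClosed S := by
    refine IsClosed.inter (hK.preimage (c0.add (c1.smul continuous_const))) ?_
    refine IsClosed.inter (hK.preimage (c0.add (c2.smul continuous_const))) ?_
    refine IsClosed.inter (isClosed_le continuous_const (c2.sub c1)) ?_
    refine IsClosed.inter (isClosed_le c1 ch) ?_
    refine IsClosed.inter (isClosed_le ch.neg c2) ?_
    exact IsClosed.inter (isClosed_le continuous_const ch) (isClosed_le ch continuous_const)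
  have h2 := isClosedMap_fst_of_compactSpace (X := E × ℝ) (Y := Icc (-M) M × Icc (-M) M) _ hSc
  convert h2 using 1
  ext ⟨x, h⟩
  constructor
  · rintro ⟨hh0, hh1, a, b, h1, h2, h3, h4, h5⟩
    simp only at hh0 hh1 h1 h2 h3 h4 h5
    have e1 := hR _ h1
    have e2 := hR _ h2
    rw [inner_add_right, inner_smul_right, real_inner_self_eq_norm_sq] at e1 e2
    rw [abs_le] at e1 e2
    have e3 : (b - a) * ‖v‖ ^ 2 ≤ 2 * R := by nlinarith [e1.1, e2.2]
    have e4 : b - a ≤ 2 * R / ‖v‖ ^ 2 := by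
      rw [le_div_iff₀ hv2]
      exact e3
    refine ⟨((x, h), (⟨a, ?_⟩, ⟨b, ?_⟩)), ⟨h1, h2, h3, h4, h5, hh0, hh1⟩, rfl⟩
    · constructor <;> simp only [hM] <;> linarith
    · constructor <;> simp only [hM] <;> linarith
  · rintro ⟨⟨⟨x', h'⟩, ⟨⟨a, ha⟩, ⟨b, hb⟩⟩⟩, ⟨h1, h2, h3, h4, h5, h6, h7⟩, he⟩
    simp only [Prod.mk.injEq] at he
    obtain ⟨rfl, rfl⟩ := he
    exact ⟨h6, h7, a, b, h1, h2, h3, h4, h5⟩

lemma isClosed_mid {K : Set E} (hK : IsClosed K) {v : E} (hv : v ≠ 0)
    (hb : ∃ R : ℝ, ∀ x ∈ K, |⟪v, x⟫| ≤ R) {h : ℝ} (h0 : 0 ≤ h) (h1 : h ≤ 1) :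
    IsClosed (mid K v h) := by
  have := (isClosed_midGraph hK hv hb).preimage
    (f := fun x : E => (x, h)) (by fun_prop)
  convert this using 1
  ext x
  simp [h0, h1]

/-- the set of times at which exactly one of `x`, `x + t v` is inside -/
def xorSet (K : Set E) (v : E) (t : ℝ) (x : E) : Set ℝ :=
  {h | h ∈ Ioo (0:ℝ) 1 ∧ ¬ (x ∈ mid K v h ↔ x + t • v ∈ mid K v h)}

lemma xorSet_dist {K : Set E} {v x : E} {t : ℝ} (ht : 0 ≤ t) {h1 h2 : ℝ}
    (H1 : h1 ∈ xorSet K v t x) (H2 : h2 ∈ xorSet K v t x) (h12 : h1 ≤ h2) : h2 - h1 ≤ t := by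
  by_contra hcon
  push Not at hcon
  obtain ⟨⟨a1, b1⟩, H1⟩ := H1
  obtain ⟨⟨a2, b2⟩, H2⟩ := H2
  have up : ∀ y, y ∈ mid K v h1 → y ∈ mid K v h2 := fun y hy => mid_mono K v h12 hy
  have s1 : x ∈ mid K v h1 → x + t • v ∈ mid K v h2 := fun hx =>
    mid_mono K v (by rw [abs_of_nonneg ht]; linarith) (mid_shift hx t)
  have s2 : x + t • v ∈ mid K v h1 → x ∈ mid K v h2 := fun hx => by
    have := mid_mono K v (h' := h2) (by rw [abs_neg, abs_of_nonneg ht]; linarith) (mid_shift hx (-t))
    have e : x + t • v + (-t) • v = x := by rw [neg_smul]; abel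
    rwa [e] at this
  apply H1
  constructor
  · intro hx
    exact absurd ⟨fun _ => s1 hx, fun _ => up _ hx⟩ H2
  · intro hx
    exact absurd ⟨fun _ => up _ hx, fun _ => s2 hx⟩ H2

lemma volume_xorSet_le {K : Set E} {v x : E} {t : ℝ} (ht : 0 ≤ t) :
    volume (xorSet K v t x) ≤ ENNReal.ofReal t := by
  refine (Real.volume_le_diam _).trans ?_
  apply Metric.ediam_le
  intro h1 H1 h2 H2
  rw [edist_dist, Real.dist_eq]
  apply ENNReal.ofReal_le_ofReal
  rcases le_total h1 h2 with h | h
  · rw [abs_sub_comm, abs_of_nonneg (by linarith)]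
    exact xorSet_dist ht H1 H2 h
  · rw [abs_of_nonneg (by linarith)]
    exact xorSet_dist ht H2 H1 h


section measure

variable [FiniteDimensional ℝ E] [MeasurableSpace E] [BorelSpace E]

lemma measurableSet_xorGraph {K : Set E} (hK : IsClosed K) {v : E} (hv : v ≠ 0)
    (hb : ∃ R : ℝ, ∀ x ∈ K, |⟪v, x⟫| ≤ R) (t : ℝ) :
    MeasurableSet {p : E × ℝ | p.2 ∈ xorSet K v t p.1} := by
  set P : Set (E × ℝ) := {p : E × ℝ | 0 ≤ p.2 ∧ p.2 ≤ 1 ∧ p.1 ∈ mid K v p.2} with hP
  have hPm : MeasurableSet P := (isClosed_midGraph hK hv hb).measurableSet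
  have hTm : MeasurableSet ((fun p : E × ℝ => (p.1 + t • v, p.2)) ⁻¹' P) :=
    (by fun_prop : Measurable fun p : E × ℝ => (p.1 + t • v, p.2)) hPm
  have hI : MeasurableSet {p : E × ℝ | p.2 ∈ Ioo (0:ℝ) 1} := measurable_snd measurableSet_Ioo
  have : {p : E × ℝ | p.2 ∈ xorSet K v t p.1} = {p : E × ℝ | p.2 ∈ Ioo (0:ℝ) 1} ∩
      ((P \ ((fun p : E × ℝ => (p.1 + t • v, p.2)) ⁻¹' P)) ∪
       (((fun p : E × ℝ => (p.1 + t • v, p.2)) ⁻¹' P) \ P)) := by
    ext ⟨x, h⟩
    simp only [xorSet, hP, mem_setOf_eq, mem_inter_iff, mem_union, mem_diff, mem_preimage]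
    constructor
    · rintro ⟨h1, h2⟩
      refine ⟨h1, ?_⟩
      have h3 := h1.1.le
      have h4 := h1.2.le
      tauto
    · rintro ⟨h1, h2⟩
      refine ⟨h1, ?_⟩
      have h3 := h1.1.le
      have h4 := h1.2.le
      tauto
  rw [this]
  exact hI.inter ((hPm.diff hTm).union (hTm.diff hPm))

lemma eventually_xorSet_empty {K : Set E} (hK : IsClosed K) {v : E} (hv : v ≠ 0)
    (hb : ∃ R : ℝ, ∀ x ∈ K, |⟪v, x⟫| ≤ R) {x : E} (hx : x ∉ star K v \ K)
    (hfr : x ∉ frontier K) : ∀ᶠ t : ℝ in 𝓝 0, xorSet K v t x = ∅ := by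
  have hcont : Continuous fun t : ℝ => x + t • v := by fun_prop
  by_cases hs : x ∈ star K v
  · have hxK : x ∈ K := by
      by_contra hcon
      exact hx ⟨hs, hcon⟩
    have hint : x ∈ interior K := by
      by_contra hcon
      apply hfr
      rw [frontier, hK.closure_eq]
      exact ⟨hxK, hcon⟩
    have h1 : ∀ᶠ t : ℝ in 𝓝 0, x + t • v ∈ interior K := by
      apply hcont.continuousAt.eventually_mem
      simpa using isOpen_interior.mem_nhds hint
    filter_upwards [h1] with t ht
    have ht' : x + t • v ∈ K := interior_subset ht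
    ext h
    simp only [xorSet, mem_setOf_eq, mem_empty_iff_false, iff_false, not_and, not_not]
    rintro ⟨h0, h1⟩
    have a1 : x ∈ mid K v 0 := mid_of_mem (h := 1) hs hxK
    have a2 : x + t • v ∈ mid K v 0 := mid_of_mem (mid_shift a1 t) ht'
    exact ⟨fun _ => mid_mono K v h0.le a2, fun _ => mid_mono K v h0.le a1⟩
  · have hcl : IsClosed (mid K v 1) := isClosed_mid hK hv hb zero_le_one le_rfl
    have hs' : x ∉ mid K v 1 := hs
    have h1 : ∀ᶠ t : ℝ in 𝓝 0, x + t • v ∈ (mid K v 1)ᶜ := by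
      apply hcont.continuousAt.eventually_mem
      simpa using hcl.isOpen_compl.mem_nhds hs'
    filter_upwards [h1] with t ht
    ext h
    simp only [xorSet, mem_setOf_eq, mem_empty_iff_false, iff_false, not_and, not_not]
    rintro ⟨h0, h1⟩
    exact ⟨fun a => absurd (mid_mono K v h1.le a) hs', fun a => absurd (mid_mono K v h1.le a) ht⟩

open scoped Classical in
/-- extended real form -/
theorem flux_gain_aux {K : Set E} (hK : IsClosed K) (hKc : Convex ℝ K) {v : E} (hv : v ≠ 0)
    (hb : ∃ R : ℝ, ∀ x ∈ K, |⟪v, x⟫| ≤ R) {W : E → ℝ≥0∞} (hWm : Measurable W)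
    (hW1 : ∀ x, W x ≤ 1) :
    ∃ h ∈ Ioo (0:ℝ) 1, ∀ c : ℝ≥0∞, ∫⁻ x, W x * (star K v \ K).indicator 1 x ∂stdGaussian E < c →
      ∃ᶠ t : ℝ in 𝓝[>] 0,
        ∫⁻ x, W x * (if h ∈ xorSet K v t x then 1 else 0) ∂stdGaussian E ≤ c * ENNReal.ofReal t := by
  set G : ℝ≥0∞ := ∫⁻ x, W x * (star K v \ K).indicator 1 x ∂stdGaussian E with hG
  set A : ℝ → ℝ → ℝ≥0∞ := fun t h =>
    ∫⁻ x, W x * (if h ∈ xorSet K v t x then 1 else 0) ∂stdGaussian E with hA
  set T : ℕ → ℝ := fun n => 1 / ((n:ℝ) + 1) with hT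
  have hTpos : ∀ n, 0 < T n := fun n => by simp only [hT]; positivity
  have hTt : Tendsto T atTop (𝓝 0) := tendsto_one_div_add_atTop_nhds_zero_nat
  have hTt' : Tendsto T atTop (𝓝[>] 0) :=
    tendsto_nhdsWithin_iff.mpr ⟨hTt, Eventually.of_forall fun n => hTpos n⟩
  have hgr : ∀ t : ℝ, Measurable fun p : E × ℝ => W p.1 * (if p.2 ∈ xorSet K v t p.1 then
      (1:ℝ≥0∞) else 0) := fun t =>
    (hWm.comp measurable_fst).mul
      (Measurable.ite (measurableSet_xorGraph hK hv hb t) measurable_const measurable_const)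
  have hAm : ∀ t, Measurable (A t) := fun t => by
    have := (hgr t).lintegral_prod_left' (μ := stdGaussian E)
    exact this
  -- measurability of the length
  have hlen : ∀ t x, ∫⁻ h in Ioo (0:ℝ) 1, (if h ∈ xorSet K v t x then (1:ℝ≥0∞) else 0)
      = volume (xorSet K v t x) := by
    intro t x
    have hm : MeasurableSet (xorSet K v t x) :=
      (measurable_prodMk_left (x := x)) (measurableSet_xorGraph hK hv hb t)
    have e1 : (fun h : ℝ => if h ∈ xorSet K v t x then (1:ℝ≥0∞) else 0)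
        = (xorSet K v t x).indicator 1 := by
      funext h
      simp [indicator]
    rw [e1, lintegral_indicator_one hm, Measure.restrict_apply hm]
    congr 1
    exact inter_eq_left.mpr fun h hh => hh.1
  have hm_meas : ∀ t, Measurable fun x => volume (xorSet K v t x) := fun t => by
    exact measurable_measure_prodMk_left (measurableSet_xorGraph hK hv hb t)
  -- Tonelli
  have hton : ∀ t, ∫⁻ h in Ioo (0:ℝ) 1, A t h
      = ∫⁻ x, W x * volume (xorSet K v t x) ∂stdGaussian E := by
    intro t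
    simp only [hA]
    rw [lintegral_lintegral_swap]
    · apply lintegral_congr
      intro x
      rw [lintegral_const_mul', hlen]
      exact ne_top_of_le_ne_top ENNReal.one_ne_top (hW1 x)
    · have := ((hgr t).comp measurable_swap).aemeasurable
        (μ := ((volume : Measure ℝ).restrict (Ioo (0:ℝ) 1)).prod (stdGaussian E))
      exact this
  -- upper limit
  set f : ℕ → E → ℝ≥0∞ := fun n x => W x * (volume (xorSet K v (T n) x) / ENNReal.ofReal (T n))
    with hf
  have hfm : ∀ n, Measurable (f n) := fun n => hWm.mul ((hm_meas _).div_const _)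
  have hT0 : ∀ n, ENNReal.ofReal (T n) ≠ 0 := fun n => by
    rw [Ne, ENNReal.ofReal_eq_zero, not_le]; exact hTpos n
  have hf1 : ∀ n x, f n x ≤ 1 := by
    intro n x
    simp only [hf]
    calc W x * (volume (xorSet K v (T n) x) / ENNReal.ofReal (T n)) ≤ 1 * 1 := by
          gcongr
          · exact hW1 x
          · rw [ENNReal.div_le_iff (hT0 n) ENNReal.ofReal_ne_top, one_mul]
            exact volume_xorSet_le (hTpos n).le
      _ = 1 := one_mul 1
  have hfr : ∀ᵐ x ∂stdGaussian E, x ∉ frontier K := by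
    have h1 : (volume : Measure E) (frontier K) = 0 := hKc.addHaar_frontier volume
    exact measure_eq_zero_iff_ae_notMem.mp (H912.stdGaussian_ac h1)
  have hlim : ∀ᵐ x ∂stdGaussian E, limsup (fun n => f n x) atTop
      ≤ W x * (star K v \ K).indicator 1 x := by
    filter_upwards [hfr] with x hx
    by_cases hxg : x ∈ star K v \ K
    · rw [indicator_of_mem hxg]
      refine limsup_le_of_le (by isBoundedDefault) (Eventually.of_forall fun n => ?_)
      simp only [hf, Pi.one_apply]
      gcongr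
      rw [ENNReal.div_le_iff (hT0 n) ENNReal.ofReal_ne_top, one_mul]
      exact volume_xorSet_le (hTpos n).le
    · rw [indicator_of_notMem hxg, mul_zero]
      refine limsup_le_of_le (by isBoundedDefault) ?_
      filter_upwards [hTt.eventually (eventually_xorSet_empty hK hv hb hxg hx)] with n hn
      simp only [hf, hn, measure_empty, ENNReal.zero_div, mul_zero, le_refl]
  have hsup : limsup (fun n => ∫⁻ x, f n x ∂stdGaussian E) atTop ≤ G := by
    calc _ ≤ ∫⁻ x, limsup (fun n => f n x) atTop ∂stdGaussian E :=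
          limsup_lintegral_le (fun _ => 1) hfm (fun n => Eventually.of_forall (hf1 n)) (by simp)
      _ ≤ G := lintegral_mono_ae hlim
  -- Fatou in `h`
  have hfat : ∫⁻ h in Ioo (0:ℝ) 1, liminf (fun n => A (T n) h / ENNReal.ofReal (T n)) atTop ≤ G := by
    calc _ ≤ liminf (fun n => ∫⁻ h in Ioo (0:ℝ) 1, A (T n) h / ENNReal.ofReal (T n)) atTop :=
          lintegral_liminf_le fun n => (hAm _).div_const _
      _ = liminf (fun n => ∫⁻ x, f n x ∂stdGaussian E) atTop := by
          congr 1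
          funext n
          simp only [div_eq_mul_inv, hf]
          rw [lintegral_mul_const _ (hAm _), hton,
            ← lintegral_mul_const (f := fun x => W x * volume (xorSet K v (T n) x)) _
              (hWm.mul (hm_meas _))]
          apply lintegral_congr
          intro x
          rw [mul_assoc]
      _ ≤ limsup (fun n => ∫⁻ x, f n x ∂stdGaussian E) atTop := liminf_le_limsup
      _ ≤ G := hsup
  have hvol : (volume : Measure ℝ) (Ioo (0:ℝ) 1) = 1 := by simp
  obtain ⟨h, hh, hle⟩ := exists_le_setLAverage (μ := (volume : Measure ℝ)) (s := Ioo (0:ℝ) 1)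
    (f := fun h => liminf (fun n => A (T n) h / ENNReal.ofReal (T n)) atTop)
    (by rw [hvol]; exact one_ne_zero) (by rw [hvol]; exact ENNReal.one_ne_top)
    (Measurable.liminf fun n => (hAm _).div_const _).aemeasurable
  rw [setLAverage_eq, hvol, div_one] at hle
  refine ⟨h, hh, fun c hc => ?_⟩
  have h1 : liminf (fun n => A (T n) h / ENNReal.ofReal (T n)) atTop < c :=
    (hle.trans hfat).trans_lt hc
  have h2 : ∃ᶠ n in atTop, A (T n) h / ENNReal.ofReal (T n) < c :=
    frequently_lt_of_liminf_lt (by isBoundedDefault) h1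
  have h3 : ∃ᶠ n in atTop, A (T n) h ≤ c * ENNReal.ofReal (T n) := by
    refine h2.mono fun n hn => ?_
    have := hn.le
    rwa [ENNReal.div_le_iff (hT0 n) ENNReal.ofReal_ne_top] at this
  exact hTt'.frequently h3

/-- **Flux is at most gain.** For a field `w 1_{Cᶜ}`, `w` a weight which is constant along `v`, one
of the intermediate bodies `C = mid K v h` of the star operation has flux at most the weighted
gain `∫ w 1_{star K v \ K}`. -/
theorem flux_gain {K : Set E} (hK : IsClosed K) (hKc : Convex ℝ K) {v : E} (hv : v ≠ 0)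
    (hb : ∃ R : ℝ, ∀ x ∈ K, |⟪v, x⟫| ≤ R) {w : E → ℝ} (hwm : Measurable w)
    (hw0 : ∀ x, 0 ≤ w x) (hw1 : ∀ x, w x ≤ 1) (hwv : ∀ x (t : ℝ), w (x + t • v) = w x) :
    ∃ h ∈ Ioo (0:ℝ) 1, ∀ ε : ℝ, 0 < ε → ∃ᶠ t : ℝ in 𝓝[>] 0,
      ∫ x, |w (x + t • v) * (mid K v h)ᶜ.indicator 1 (x + t • v)
        - w x * (mid K v h)ᶜ.indicator 1 x| ∂stdGaussian E
      ≤ ((∫ x, w x * (star K v \ K).indicator 1 x ∂stdGaussian E) + ε) * t := by
  classical
  obtain ⟨h, hh, H⟩ := flux_gain_aux hK hKc hv hb (W := fun x => ENNReal.ofReal (w x))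
    hwm.ennreal_ofReal (fun x => by
      rw [← ENNReal.ofReal_one]; exact ENNReal.ofReal_le_ofReal (hw1 x))
  refine ⟨h, hh, fun ε hε => ?_⟩
  have hstar : MeasurableSet (star K v) := by
    have := (isClosed_mid hK hv hb zero_le_one le_rfl).measurableSet
    exact this
  set G : ℝ := ∫ x, w x * (star K v \ K).indicator 1 x ∂stdGaussian E with hG
  have hG' : ∫⁻ x, ENNReal.ofReal (w x) * (star K v \ K).indicator 1 x ∂stdGaussian E
      = ENNReal.ofReal G := by
    rw [hG, ofReal_integral_eq_lintegral_ofReal]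
    · apply lintegral_congr
      intro x
      by_cases hx : x ∈ star K v \ K
      · simp [indicator_of_mem hx]
      · simp [indicator_of_notMem hx]
    · refine Integrable.of_bound (C := 1) ?_ (Eventually.of_forall fun x => ?_)
      · exact (hwm.mul (measurable_const.indicator (hstar.diff hK.measurableSet))).aestronglyMeasurable
      · by_cases hx : x ∈ star K v \ K
        · simp only [indicator_of_mem hx, Pi.one_apply, mul_one, Real.norm_eq_abs,
            abs_of_nonneg (hw0 x)]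
          exact hw1 x
        · simp [indicator_of_notMem hx]
    · refine Eventually.of_forall fun x => ?_
      by_cases hx : x ∈ star K v \ K
      · simp only [indicator_of_mem hx, Pi.one_apply, mul_one, Pi.zero_apply]
        exact hw0 x
      · simp [indicator_of_notMem hx]
  have hG0 : 0 ≤ G := by
    rw [hG]
    refine integral_nonneg fun x => ?_
    by_cases hx : x ∈ star K v \ K
    · simp only [indicator_of_mem hx, Pi.one_apply, mul_one, Pi.zero_apply]
      exact hw0 x
    · simp [indicator_of_notMem hx]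
  have h1 := H (ENNReal.ofReal (G + ε)) (by
    rw [hG', ENNReal.ofReal_lt_ofReal_iff (by linarith)]
    linarith)
  refine (h1.and_eventually self_mem_nhdsWithin).mono fun t ht => ?_
  obtain ⟨ht, ht0⟩ := ht
  have ht0' : 0 < t := ht0
  have e1 : ∀ x, |w (x + t • v) * (mid K v h)ᶜ.indicator 1 (x + t • v)
      - w x * (mid K v h)ᶜ.indicator 1 x| = w x * (if h ∈ xorSet K v t x then 1 else 0) := by
    intro x
    rw [hwv, ← mul_sub, abs_mul, abs_of_nonneg (hw0 x)]
    congr 1
    by_cases a1 : x ∈ mid K v h <;> by_cases a2 : x + t • v ∈ mid K v h <;>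
      simp [xorSet, a1, a2, hh.1, hh.2]
  have e2 : ∫ x, |w (x + t • v) * (mid K v h)ᶜ.indicator 1 (x + t • v)
      - w x * (mid K v h)ᶜ.indicator 1 x| ∂stdGaussian E
      = (∫⁻ x, ENNReal.ofReal (w x) * (if h ∈ xorSet K v t x then 1 else 0) ∂stdGaussian E).toReal := by
    have hmid : MeasurableSet (mid K v h) := (isClosed_mid hK hv hb hh.1.le hh.2.le).measurableSet
    rw [integral_eq_lintegral_of_nonneg_ae]
    · congr 1
      apply lintegral_congr
      intro x
      rw [e1 x]
      split_ifs <;> simp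
    · exact Eventually.of_forall fun x => abs_nonneg _
    · have m1 : Measurable fun x => w x * (mid K v h)ᶜ.indicator 1 x :=
        hwm.mul (measurable_const.indicator hmid.compl)
      have m2 : Measurable fun x : E => x + t • v := by fun_prop
      exact ((m1.comp m2).sub m1).abs.aestronglyMeasurable
  rw [e2]
  have h3 : ENNReal.ofReal (G + ε) * ENNReal.ofReal t = ENNReal.ofReal ((G + ε) * t) := by
    rw [ENNReal.ofReal_mul (by linarith)]
  rw [h3] at ht
  exact ENNReal.toReal_le_of_le_ofReal (by positivity) ht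

lemma integrable_w_ind {w : E → ℝ} (hwm : Measurable w) (hw0 : ∀ x, 0 ≤ w x)
    (hw1 : ∀ x, w x ≤ 1) {S : Set E} (hS : MeasurableSet S) :
    Integrable (fun x => w x * S.indicator 1 x) (stdGaussian E) := by
  refine Integrable.of_bound (C := 1)
    (hwm.mul (measurable_const.indicator hS)).aestronglyMeasurable (Eventually.of_forall fun x => ?_)
  by_cases hx : x ∈ S
  · simp only [indicator_of_mem hx, Pi.one_apply, mul_one, Real.norm_eq_abs,
      abs_of_nonneg (hw0 x)]
    exact hw1 x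
  · simp [indicator_of_notMem hx]

lemma measurableSet_star {K : Set E} (hK : IsClosed K) {v : E} (hv : v ≠ 0)
    (hb : ∃ R : ℝ, ∀ x ∈ K, |⟪v, x⟫| ≤ R) : MeasurableSet (star K v) :=
  (isClosed_mid hK hv hb zero_le_one le_rfl).measurableSet

/-- `L¹` distance from `K` to the intermediate body: at most weighted gain plus weighted loss -/
theorem integral_mid_sub_le {K : Set E} (hK : IsClosed K) {v : E} (hv : v ≠ 0)
    (hb : ∃ R : ℝ, ∀ x ∈ K, |⟪v, x⟫| ≤ R) {w : E → ℝ} (hwm : Measurable w)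
    (hw0 : ∀ x, 0 ≤ w x) (hw1 : ∀ x, w x ≤ 1) {h : ℝ} (h0 : 0 ≤ h) (h1 : h ≤ 1) :
    ∫ x, |w x * (mid K v h)ᶜ.indicator 1 x - w x * Kᶜ.indicator 1 x| ∂stdGaussian E
      ≤ ∫ x, w x * (star K v \ K).indicator 1 x ∂stdGaussian E
        + ∫ x, w x * (K \ star K v).indicator 1 x ∂stdGaussian E := by
  have hs := measurableSet_star hK hv hb
  have hm : MeasurableSet (mid K v h) := (isClosed_mid hK hv hb h0 h1).measurableSet
  rw [← integral_add (integrable_w_ind hwm hw0 hw1 (hs.diff hK.measurableSet))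
    (integrable_w_ind hwm hw0 hw1 (hK.measurableSet.diff hs))]
  refine integral_mono ?_ ?_ fun x => ?_
  · exact ((integrable_w_ind hwm hw0 hw1 hm.compl).sub
      (integrable_w_ind hwm hw0 hw1 hK.measurableSet.compl)).abs
  · exact (integrable_w_ind hwm hw0 hw1 (hs.diff hK.measurableSet)).add
      (integrable_w_ind hwm hw0 hw1 (hK.measurableSet.diff hs))
  · simp only
    rw [← mul_sub, abs_mul, abs_of_nonneg (hw0 x), ← mul_add]
    exact mul_le_mul_of_nonneg_left (abs_ind_mid_sub_le h0 h1 x) (hw0 x)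

/-- `L¹` distance from the intermediate body to `star K v`: at most the weighted gain -/
theorem integral_star_sub_le {K : Set E} (hK : IsClosed K) {v : E} (hv : v ≠ 0)
    (hb : ∃ R : ℝ, ∀ x ∈ K, |⟪v, x⟫| ≤ R) {w : E → ℝ} (hwm : Measurable w)
    (hw0 : ∀ x, 0 ≤ w x) (hw1 : ∀ x, w x ≤ 1) {h : ℝ} (h0 : 0 ≤ h) (h1 : h ≤ 1) :
    ∫ x, |w x * (star K v)ᶜ.indicator 1 x - w x * (mid K v h)ᶜ.indicator 1 x| ∂stdGaussian E
      ≤ ∫ x, w x * (star K v \ K).indicator 1 x ∂stdGaussian E := by
  have hs := measurableSet_star hK hv hb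
  have hm : MeasurableSet (mid K v h) := (isClosed_mid hK hv hb h0 h1).measurableSet
  refine integral_mono ?_ ?_ fun x => ?_
  · exact ((integrable_w_ind hwm hw0 hw1 hs.compl).sub
      (integrable_w_ind hwm hw0 hw1 hm.compl)).abs
  · exact integrable_w_ind hwm hw0 hw1 (hs.diff hK.measurableSet)
  · simp only
    rw [← mul_sub, abs_mul, abs_of_nonneg (hw0 x)]
    exact mul_le_mul_of_nonneg_left (abs_ind_star_sub_le h0 h1 x) (hw0 x)

end measure

end Vale.Agent.P262.H108
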