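import Vale.Agent.P262.H108.FluxGain
import Vale.Agent.P262.H941.Flux

/-!
# Flux at most gain, in the notation of helper941
-/

set_option linter.all false

open MeasureTheory ProbabilityTheory Set Filter Topology
open scoped ENNReal RealInnerProductSpace

namespace Vale.Agent.P262.H108

open Vale.Agent.P262.H493 (star)
open Vale.Agent.P262.H847 (UI)

variable {E : Type*} [NormedAddCommGroup E] [InnerProductSpace ℝ E] [FiniteDimensional ℝ E]
  [MeasurableSpace E] [BorelSpace E]

/-- weight times the field of a set -/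
noncomputable def wf (w : E → ℝ) (C : Set E) : E → ℝ := fun x => w x * Cᶜ.indicator 1 x

lemma UI_wf {w : E → ℝ} (hw : UI w) {C : Set E} (hC : MeasurableSet C) : UI (wf w C) := by
  refine ⟨hw.meas.mul (measurable_const.indicator hC.compl), fun x => ?_, fun x => ?_⟩
  · exact mul_nonneg (hw.nonneg x) (indicator_nonneg (by simp) x)
  · unfold wf
    by_cases hx : x ∈ Cᶜ
    · simp only [indicator_of_mem hx, Pi.one_apply, mul_one]
      exact hw.le_one x
    · simp [indicator_of_notMem hx]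

/-- **Flux at most gain.** -/
theorem fluxLe_mid {K : Set E} (hK : IsClosed K) (hKc : Convex ℝ K) {v : E} (hv : v ≠ 0)
    (hb : ∃ R : ℝ, ∀ x ∈ K, |⟪v, x⟫| ≤ R) {w : E → ℝ} (hw : UI w)
    (hwv : ∀ x (t : ℝ), w (x + t • v) = w x) :
    ∃ h ∈ Ioo (0:ℝ) 1, H941.FluxLe (wf w (mid K v h)) v
      (∫ x, w x * (star K v \ K).indicator 1 x ∂stdGaussian E) :=
  flux_gain hK hKc hv hb hw.meas hw.nonneg hw.le_one hwv

/-- **The intermediate field of a star step**: an intermediate convex body with flux at most the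
gain, at `L¹` distance at most gain plus loss from the field before the step and at most the gain
from the field after the step. -/
theorem exists_mid {K : Set E} (hK : IsClosed K) (hKc : Convex ℝ K) {v : E} (hv : v ≠ 0)
    (hb : ∃ R : ℝ, ∀ x ∈ K, |⟪v, x⟫| ≤ R) {w : E → ℝ} (hw : UI w)
    (hwv : ∀ x (t : ℝ), w (x + t • v) = w x) :
    ∃ C : Set E, Convex ℝ C ∧ IsClosed C ∧ C ⊆ star K v ∧ ((∀ x ∈ K, -x ∈ K) → ∀ x ∈ C, -x ∈ C) ∧
      (K \ C = K \ star K v) ∧
      H941.FluxLe (wf w C) v (∫ x, w x * (star K v \ K).indicator 1 x ∂stdGaussian E) ∧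
      ∫ x, |wf w C x - wf w K x| ∂stdGaussian E
        ≤ ∫ x, w x * (star K v \ K).indicator 1 x ∂stdGaussian E
          + ∫ x, w x * (K \ star K v).indicator 1 x ∂stdGaussian E ∧
      ∫ x, |wf w (star K v) x - wf w C x| ∂stdGaussian E
        ≤ ∫ x, w x * (star K v \ K).indicator 1 x ∂stdGaussian E := by
  obtain ⟨h, hh, hfl⟩ := fluxLe_mid hK hKc hv hb hw hwv
  refine ⟨mid K v h, convex_mid hKc v h, isClosed_mid hK hv hb hh.1.le hh.2.le,
    mid_subset_star hh.2.le, fun hs x hx => neg_mem_mid hs hx, ?_, hfl,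
    integral_mid_sub_le hK hv hb hw.meas hw.nonneg hw.le_one hh.1.le hh.2.le,
    integral_star_sub_le hK hv hb hw.meas hw.nonneg hw.le_one hh.1.le hh.2.le⟩
  ext x
  constructor
  · rintro ⟨h1, h2⟩
    exact ⟨h1, notMem_star_of_notMem_mid hh.1.le h2 h1⟩
  · rintro ⟨h1, h2⟩
    exact ⟨h1, fun h3 => h2 (mid_subset_star hh.2.le h3)⟩

end Vale.Agent.P262.H108
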