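import Vale.Agent.P262.M2.Cls
import Vale.Agent.P262.H118.K2c

/-!
# P262, milestone 2: dimension gap along a path without leaves

Every genuine level (the parent is not a leaf) adds at least one dimension to the label space.
Below a leaf the label space does not grow any more.
-/

set_option linter.all false

open MeasureTheory ProbabilityTheory Set Module
open scoped ENNReal RealInnerProductSpace

namespace Vale.Agent.P262.M2.Sys

variable {E : Type*} [NormedAddCommGroup E] [InnerProductSpace ℝ E] [FiniteDimensional ℝ E]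
  [MeasurableSpace E] [BorelSpace E] {S : Sys E}

/-- path of a node below a node -/
lemma nb_add_g (p : List ℕ) (m : ℕ) (x : E) (a b : ℕ) :
    S.nb p m x (a + b) = S.nb (S.nb p m x a) m x b := by
  induction b with
  | zero => rfl
  | succ b ih =>
    rw [← Nat.add_assoc]
    change S.kl (S.nb p m x (a + b)) m x :: S.nb p m x (a + b) = _
    rw [ih]; rfl

lemma nd_add_g (m : ℕ) (x : E) (j k : ℕ) : S.nd m x (j + k) = S.nb (S.nd m x j) m x k :=
  nb_add_g [] m x j k

lemma length_nb_g (p : List ℕ) (m : ℕ) (x : E) (k : ℕ) : (S.nb p m x k).length = p.length + k := by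
  induction k with
  | zero => rfl
  | succ k ih =>
    change (S.kl (S.nb p m x k) m x :: S.nb p m x k).length = _
    rw [List.length_cons, ih]; omega

lemma length_nd_g (m : ℕ) (x : E) (k : ℕ) : (S.nd m x k).length = k := by
  have := length_nb_g (S := S) [] m x k
  simpa [Sys.nd] using this

/-- one genuine level -/
lemma finrank_succ_g {p : List ℕ} {c m : ℕ} (hm : S.mv.tm m < S.T) (h : ¬ S.Leaf p m) :
    finrank ℝ (S.W p m) + 1 ≤ finrank ℝ (S.W (c :: p) m) := by
  have h1 := S.K.one_le_kd (c := c) (p := p) hm (by unfold Sys.Leaf Sys.W at h; omega)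
  have h2 : finrank ℝ (S.W (c :: p) m) = finrank ℝ (S.W p m) + S.K.kd (c :: p) (S.mv.tm m) := by
    unfold Sys.W; exact S.K.finrank_cons _ _ _
  omega

/-- **leaves stay leaves**, and nothing grows below them -/
lemma leaf_cons_g {p : List ℕ} {m : ℕ} (c : ℕ) (h : S.Leaf p m) :
    S.Leaf (c :: p) m ∧ S.W (c :: p) m = S.W p m := by
  have h1 : S.W (c :: p) m = S.W p m := ((S.K.child c p).leaf _ h).1
  refine ⟨?_, h1⟩
  unfold Sys.Leaf at h ⊢
  rw [h1]; exact h

lemma leaf_nb_g {p : List ℕ} {m : ℕ} (x : E) (h : S.Leaf p m) (k : ℕ) :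
    S.Leaf (S.nb p m x k) m ∧ S.W (S.nb p m x k) m = S.W p m := by
  induction k with
  | zero => exact ⟨h, rfl⟩
  | succ k ih =>
    obtain ⟨h1, h2⟩ := leaf_cons_g (S.kl (S.nb p m x k) m x) ih.1
    exact ⟨h1, h2.trans ih.2⟩

/-- if the level `k` is not a leaf, no level above is one -/
lemma nl_of_nl_g {m : ℕ} {x : E} {i k : ℕ} (hik : i ≤ k) (h : x ∈ S.NL k m) : x ∈ S.NL i m := by
  intro hi
  apply h
  obtain ⟨a, rfl⟩ := Nat.exists_eq_add_of_le hik
  rw [nd_add_g]
  exact (leaf_nb_g x hi a).1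

/-- **the gap** below a node -/
theorem gap_nb {p : List ℕ} {m : ℕ} {x : E} (hm : S.mv.tm m < S.T) {k : ℕ}
    (h : ∀ i < k, ¬ S.Leaf (S.nb p m x i) m) :
    finrank ℝ (S.W p m) + k ≤ finrank ℝ (S.W (S.nb p m x k) m) := by
  induction k with
  | zero => exact le_rfl
  | succ k ih =>
    have h1 := ih fun i hi => h i (by omega)
    have h2 := finrank_succ_g (c := S.kl (S.nb p m x k) m x) hm (h k (by omega))
    change finrank ℝ (S.W p m) + (k + 1) ≤
      finrank ℝ (S.W (S.kl (S.nb p m x k) m x :: S.nb p m x k) m)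
    omega

/-- **the gap of the throughput**: `dim W_i ≥ dim W_j + own dimension + (i - (j + 1))` if the
parent of the level `i` is not a leaf (or `i = j + 1`) -/
theorem gap_thru {m : ℕ} {x : E} (hm : S.mv.tm m < S.T) {j i : ℕ} (hij : j + 1 ≤ i)
    (h : ∀ k, j + 1 ≤ k → k < i → x ∈ S.NL k m) :
    finrank ℝ (S.W (S.nd m x j) m) + (S.K.kd (S.nd m x (j + 1)) (S.mv.tm m) + (i - (j + 1))) ≤
      finrank ℝ (S.W (S.nd m x i) m) := by
  obtain ⟨a, rfl⟩ := Nat.exists_eq_add_of_le hij
  have h1 : finrank ℝ (S.W (S.nd m x (j + 1)) m) =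
      finrank ℝ (S.W (S.nd m x j) m) + S.K.kd (S.nd m x (j + 1)) (S.mv.tm m) := by
    change finrank ℝ (S.K.W (S.kl (S.nd m x j) m x :: S.nd m x j) (S.mv.tm m)) = _
    exact S.K.finrank_cons _ _ _
  have h2 : finrank ℝ (S.W (S.nd m x (j + 1)) m) + a ≤
      finrank ℝ (S.W (S.nd m x (j + 1 + a)) m) := by
    rw [nd_add_g m x (j + 1) a]
    refine gap_nb hm fun i hi => ?_
    rw [← nd_add_g]
    exact h (j + 1 + i) (by omega) (by omega)
  have h3 : j + 1 + a - (j + 1) = a := by omega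
  rw [h3]
  omega

/-- the same for the set of the throughput -/
theorem gap_thru' {m : ℕ} {x : E} (hm : S.mv.tm m < S.T) {j i : ℕ} (hij : j + 1 ≤ i)
    (hx : S.nd m x (j + 1) = S.mv.jj m) (h : j + 1 < i → x ∈ S.NL (i - 1) m) :
    finrank ℝ (S.W (S.nd m x j) m) + (S.K.kd (S.mv.jj m) (S.mv.tm m) + (i - (j + 1))) ≤
      finrank ℝ (S.W (S.nd m x i) m) := by
  rw [← hx]
  exact gap_thru hm hij fun k h1 h2 => nl_of_nl_g (by omega) (h (by omega))

/-- the level of a label is at most the dimension of its label space -/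
theorem level_le {m : ℕ} {x : E} (hm : S.mv.tm m < S.T) {i : ℕ} (h : x ∈ S.NL (i - 1) m) :
    i ≤ finrank ℝ (S.W (S.nd m x i) m) := by
  have h1 := gap_nb (S := S) (p := []) hm (k := i) (x := x) fun k hk =>
    nl_of_nl_g (S := S) (x := x) (m := m) (i := k) (k := i - 1) (by omega) h
  have h2 : finrank ℝ (S.W [] m) = 0 := by rw [Sys.W_nil]; exact finrank_bot ℝ E
  rw [h2, zero_add] at h1
  exact h1

/-- there is no non leaf label at a level `≥ dim - 1` -/
theorem NL_empty {m : ℕ} (hm : S.mv.tm m < S.T) {j : ℕ} (hj : finrank ℝ E ≤ j + 1) :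
    S.NL j m = ∅ := by
  ext x
  simp only [mem_empty_iff_false, iff_false]
  intro h
  have h1 : x ∈ S.NL (j - 1) m := nl_of_nl_g (by omega) h
  have h2 := level_le hm h1
  have h3 := Submodule.finrank_add_finrank_orthogonal (𝕜 := ℝ) (S.W (S.nd m x j) m)
  have h4 : ¬ finrank ℝ (S.W (S.nd m x j) m)ᗮ ≤ 1 := h
  omega

/-- the unit of the last levels is zero -/
theorem Ut_eq_zero {j : ℕ} (hj : finrank ℝ E ≤ j + 1)
    (htm : ∀ m < S.mT, S.mv.tm m < S.T) : S.Ut j = 0 := by
  unfold Sys.Ut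
  refine Finset.sum_eq_zero fun m hm => ?_
  rw [NL_empty (htm m (Finset.mem_range.1 hm)) hj]
  simp [Sys.iw]

end Vale.Agent.P262.M2.Sys
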